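import Crest.Agent.R11.Zero

set_option autoImplicit false

/-! Analytic estimates. -/

namespace Crest.Agent.R11

open Finsupp hiding some
open MvPolynomial Asymptotics Filter Topology

variable {σ : Type} [Fintype σ] [DecidableEq σ]

/-- the value along a leaf -/
noncomputable def leaf (a : σ → ℂ) (Q : R σ) (t : ℂ) : ℂ :=
  aeval (fun o : Option σ => o.elim (Complex.exp t) (fun l => a l + t)) Q

lemma leaf_hasDerivAt (a : σ → ℂ) (Q : R σ) (t : ℂ) :
    HasDerivAt (leaf a Q) (leaf a (D none Q) t) t := by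
  induction Q using MvPolynomial.induction_on with
  | C c =>
    have : leaf a (C c) = fun _ => c := by ext; simp [leaf]
    rw [this]
    simpa [leaf, derivation_C] using hasDerivAt_const t c
  | add f g hf hg =>
    have : leaf a (f + g) = fun t => leaf a f t + leaf a g t := by ext; simp [leaf]
    rw [this]
    have e : leaf a (D none (f + g)) t = leaf a (D none f) t + leaf a (D none g) t := by
      simp [leaf]
    rw [e]
    exact hf.fun_add hg
  | mul_X f i hf =>
    have : leaf a (f * X i) = fun t => leaf a f t * leaf a (X i) t := by ext; simp [leaf]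
    rw [this]
    have h2 : HasDerivAt (leaf a (X i)) (leaf a (D none (X i)) t) t := by
      cases i with
      | none =>
        have : leaf a (X none) = Complex.exp := by ext; simp [leaf]
        rw [this]
        simpa [leaf, D_none] using Complex.hasDerivAt_exp t
      | some l =>
        have : leaf a (X (some l)) = fun t => a l + t := by ext; simp [leaf]
        rw [this]
        have h1 : D none (X (some l) : R σ) = 1 := by
          rw [D_none, Finset.sum_eq_single l] <;> simp +contextual [pderiv_X_of_ne, eq_comm]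
        simpa [leaf, h1] using (hasDerivAt_id t).const_add (a l)
    have e : leaf a (D none (f * X i)) t =
        leaf a (D none f) t * leaf a (X i) t + leaf a f t * leaf a (D none (X i)) t := by
      simp [leaf]; ring
    rw [e]
    exact hf.fun_mul h2

lemma leaf_iteratedDeriv (a : σ → ℂ) (Q : R σ) (s : ℕ) :
    iteratedDeriv s (leaf a Q) = leaf a (DL (List.replicate s none) Q) := by
  induction s with
  | zero => simp
  | succ s ih =>
    rw [iteratedDeriv_succ, ih, List.replicate_succ, DL_cons]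
    ext t
    exact (leaf_hasDerivAt _ _ t).deriv

lemma cauchy (a : σ → ℂ) (Q : R σ) (s : ℕ) {M : ℝ} (h : ∀ t : ℂ, ‖t‖ = 1 → ‖leaf a Q t‖ ≤ M) :
    ‖leaf a (DL (List.replicate s none) Q) 0‖ ≤ s.factorial * M := by
  have := Complex.norm_iteratedDeriv_le_of_forall_mem_sphere_norm_le (c := 0) (f := leaf a Q) s
    one_pos (Differentiable.diffContOnCl fun t => (leaf_hasDerivAt a Q t).differentiableAt)
    (fun z hz => h z (by simpa using hz))
  rw [leaf_iteratedDeriv] at this
  simpa using this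

lemma differentiable_aeval {ι : Type} {a : ι → ℂ → ℂ} (ha : ∀ i, Differentiable ℂ (a i))
    (Q : MvPolynomial ι ℂ) : Differentiable ℂ fun ζ => aeval (fun i => a i ζ) Q := by
  induction Q using MvPolynomial.induction_on with
  | C c => simp
  | add f g hf hg => simpa using hf.fun_add hg
  | mul_X f i hf => simpa using hf.fun_mul (ha i)

lemma aeval_Lg (a : Option σ → ℂ) (n : ℕ) :
    aeval a (Lg σ ℂ n) = Complex.logTaylor (n + 1) (a none) := by
  rw [Complex.logTaylor, Finset.sum_range_succ', Lg, map_sum]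
  simp only [Nat.cast_zero, div_zero, add_zero]
  refine Finset.sum_congr rfl fun j _ => ?_
  simp [pow_succ]; ring

lemma isBigO_aeval {ι : Type} [Fintype ι] [DecidableEq ι] {w : ι → ℕ} {a : ι → ℂ → ℂ}
    (ha : ∀ i, a i =O[𝓝 0] fun ζ => ζ ^ w i) {G : MvPolynomial ι ℂ} {V : ℕ}
    (hG : ∀ β, coeff β G ≠ 0 → V ≤ weight w β) :
    (fun ζ => aeval (fun i => a i ζ) G) =O[𝓝 0] fun ζ => ζ ^ V := by
  simp only [aeval_eq_eval₂Hom, coe_eval₂Hom, eval₂_eq']
  refine IsBigO.fun_sum fun β hβ => IsBigO.const_mul_left ?_ _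
  have h1 := IsBigO.finsetProd (s := Finset.univ) fun i _ => (ha i).pow (β i)
  refine h1.trans ?_
  obtain ⟨e, he⟩ := Nat.exists_eq_add_of_le (hG β (MvPolynomial.mem_support_iff.1 hβ))
  have h2 : (fun ζ : ℂ => ∏ i, (ζ ^ w i) ^ β i) = fun ζ => ζ ^ V * ζ ^ e := by
    ext ζ
    rw [← pow_add, ← he, weight_eq_sum, ← Finset.prod_pow_eq_pow_sum]
    exact Finset.prod_congr rfl fun i _ => by rw [← pow_mul, smul_eq_mul, mul_comm]
  rw [h2]
  have h3 : (fun ζ : ℂ => ζ ^ e) =O[𝓝 0] fun _ => (1 : ℂ) :=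
    ((continuous_pow e).tendsto 0).isBigO_one ℂ
  simpa using (isBigO_refl (fun ζ : ℂ => ζ ^ V) _).mul h3

/-- the origin -/
def pt0 (σ : Type) : Option σ → ℂ := fun o => o.elim 1 (fun _ => 0)

/-- weighted dilation -/
noncomputable def dil (n : σ → ℕ) (z : ℂ) (w : σ → ℂ) (ζ : ℂ) : Option σ → ℂ :=
  fun o => o.elim (Complex.exp (ζ * z)) (fun l => ζ * z + ζ ^ n l * w l)

lemma dil_isBigO {n : σ → ℕ} {Q : R σ} {V : ℕ}
    (hQ : ∀ β, coeff β (phi n (pt0 σ) Q) ≠ 0 → V ≤ weight (wt 1 n) β) (z : ℂ) (w : σ → ℂ) :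
    (fun ζ => aeval (dil n z w ζ) Q) =O[𝓝 0] fun ζ => ζ ^ V := by
  let a : Option σ → ℂ → ℂ := fun o ζ => o.elim (Complex.exp (ζ * z) - 1)
    (fun l => ζ * z - Complex.logTaylor (n l + 1) (Complex.exp (ζ * z) - 1) + ζ ^ n l * w l)
  have h1 : ∀ ζ, aeval (dil n z w ζ) Q = aeval (fun i => a i ζ) (phi n (pt0 σ) Q) := by
    intro ζ
    have : aeval (dil n z w ζ) = (aeval (fun i => a i ζ)).comp (phi n (pt0 σ)) := by
      ext i
      cases i with
      | none => simp [phi_X_none, dil, a, pt0]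
      | some l =>
        simp only [AlgHom.comp_apply, phi_X_some, map_add, aeval_Lg, aeval_X, aeval_C]
        simp [dil, a, pt0]; ring
    rw [this]; rfl
  simp only [h1]
  have h2 : (fun ζ => Complex.exp (ζ * z) - 1) =O[𝓝 0] fun ζ => ζ := by
    have := (((hasDerivAt_id (0 : ℂ)).mul_const z).cexp).isBigO_sub
    simpa using this
  refine isBigO_aeval (fun i => ?_) hQ
  cases i with
  | none => simpa [a] using h2
  | some l =>
    refine IsBigO.add ?_ ?_
    · have h3 : Tendsto (fun ζ => Complex.exp (ζ * z) - 1) (𝓝 0) (𝓝 0) :=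
        h2.trans_tendsto tendsto_id
      have h4 := (Complex.log_sub_logTaylor_isBigO (n l)).comp_tendsto h3
      have h5 : ∀ᶠ ζ in 𝓝 (0 : ℂ), Complex.log (1 + (Complex.exp (ζ * z) - 1)) = ζ * z := by
        have h6 : Tendsto (fun ζ : ℂ => (ζ * z).im) (𝓝 0) (𝓝 0) := by
          have : Continuous fun ζ : ℂ => (ζ * z).im := by fun_prop
          simpa using this.tendsto 0
        filter_upwards [h6.eventually (Ioo_mem_nhds (neg_lt_zero.2 Real.pi_pos) Real.pi_pos)]
          with ζ hζ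
        rw [add_sub_cancel, Complex.log_exp hζ.1 hζ.2.le]
      have h6 : (fun ζ : ℂ => ζ ^ (n l + 1)) =O[𝓝 0] fun ζ => ζ ^ n l :=
        (isLittleO_pow_pow (Nat.lt_succ_self _)).isBigO
      refine IsBigO.congr' ((h4.trans (h2.pow _)).trans h6) ?_ EventuallyEq.rfl
      filter_upwards [h5] with ζ hζ
      simp only [Function.comp, hζ]
    · simpa [mul_comm] using (isBigO_refl (fun ζ : ℂ => ζ ^ n l) _).const_mul_left (w l)

lemma schwarz {n : σ → ℕ} {Q : R σ} {V lam M : ℝ} (hlam : 0 < lam)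
    (hQ : phi n (pt0 σ) Q ∈ J ℂ (wt 1 n) Finset.univ V) (z : ℂ) (w : σ → ℂ)
    (hM : ∀ ζ : ℂ, ‖ζ‖ < Real.exp lam → ‖aeval (dil n z w ζ) Q‖ ≤ M) :
    ‖aeval (dil n z w 1) Q‖ ≤ M * Real.exp (-(lam * V)) := by
  have hE : 1 < Real.exp lam := Real.one_lt_exp_iff.2 hlam
  have h1 := hM 1 (by simpa using hE)
  have hM0 : 0 ≤ M := (norm_nonneg _).trans h1
  rcases le_or_gt V 0 with hV | hV
  · refine h1.trans (le_mul_of_one_le_right hM0 (Real.one_le_exp ?_))
    nlinarith
  obtain ⟨v, hv⟩ : ∃ v, ⌈V⌉₊ = v + 1 := Nat.exists_eq_succ_of_ne_zero (Nat.ceil_pos.2 hV).ne'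
  have hO := dil_isBigO (V := v + 1) (fun β hβ => by
    rw [← hv, Nat.ceil_le]
    by_contra h
    exact hβ (hQ β ⟨Finset.subset_univ _, not_le.1 h⟩)) z w
  set H : ℂ → ℂ := fun ζ => aeval (dil n z w ζ) Q
  have hd : Differentiable ℂ H := by
    refine differentiable_aeval (a := fun i ζ => dil n z w ζ i) (fun i => ?_) Q
    cases i <;> simp only [dil, Option.elim] <;> fun_prop
  have h0 : H 0 = 0 := by
    have := hO.bound
    obtain ⟨c, hc⟩ := this
    simpa using hc.self_of_nhds
  have := Complex.dist_le_mul_div_pow_of_mapsTo_ball_of_isLittleO (f := H) (c := 0) (z := 1)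
    (R₁ := Real.exp lam) (R₂ := M) (n := v) hd.differentiableOn
    (fun ζ hζ => by rw [h0, mem_closedBall_zero_iff]; exact hM ζ (by simpa using hζ))
    (by
      simp only [h0, sub_zero]
      refine hO.trans_isLittleO ?_
      have := (isLittleO_pow_pow (𝕜 := ℂ) (Nat.lt_succ_self v)).norm_right
      simpa using this) (by simpa using hE)
  simp only [h0, dist_zero_right, norm_one] at this
  refine this.trans (mul_le_mul_of_nonneg_left ?_ hM0)
  rw [one_div, ← Real.exp_neg, ← Real.exp_nat_mul, ← hv]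
  have := Nat.le_ceil V
  exact Real.exp_le_exp.2 (by nlinarith)

lemma norm_aeval_PL {ι : Type} [Fintype ι] [DecidableEq ι] (P : MvPolynomial ι ℂ) (L : List ι)
    {x : ι → ℂ} {U : ι → ℝ} (hU : ∀ i, 1 ≤ U i) (hx : ∀ i, ‖x i‖ ≤ U i) :
    ‖aeval x (PL L P)‖ ≤ (∏ i, (cntL L i).factorial : ℕ) *
      ∑ a ∈ P.support, ‖coeff a P‖ * ∏ i, (2 * U i) ^ a i := by
  simp only [aeval_eq_eval₂Hom, coe_eval₂Hom, eval₂_eq']
  set c := cntL L
  let F : (ι →₀ ℕ) → ℝ := fun a => ‖coeff a P‖ * ∏ i, (2 * U i) ^ a i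
  have hF : ∀ a, 0 ≤ F a := fun a => mul_nonneg (norm_nonneg _)
    (Finset.prod_nonneg fun i _ => pow_nonneg (by linarith [hU i]) _)
  have h1 : ∑ γ ∈ (PL L P).support, F (γ + c) ≤ ∑ a ∈ P.support, F a := by
    rw [← Finset.sum_image (s := (PL L P).support) (g := fun γ => γ + c) (f := F)
      (fun a _ b _ h => add_right_cancel h)]
    refine Finset.sum_le_sum_of_subset_of_nonneg (fun a ha => ?_) fun a _ _ => hF a
    obtain ⟨γ, hγ, rfl⟩ := Finset.mem_image.1 ha
    rw [MvPolynomial.mem_support_iff] at hγ ⊢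
    rw [coeff_PL] at hγ
    exact left_ne_zero_of_mul hγ
  refine (norm_sum_le _ _).trans (le_trans ?_ (mul_le_mul_of_nonneg_left h1 (by positivity)))
  rw [Finset.mul_sum]
  refine Finset.sum_le_sum fun γ _ => ?_
  simp only [F, coeff_PL, Algebra.algebraMap_self, RingHom.id_apply, norm_mul, norm_prod, norm_pow,
    Nat.cast_prod, Complex.norm_natCast]
  rw [mul_assoc, mul_left_comm _ ‖coeff (γ + c) P‖, ← Finset.prod_mul_distrib,
    ← Finset.prod_mul_distrib]
  refine mul_le_mul_of_nonneg_left (Finset.prod_le_prod (fun _ _ => by positivity) fun i _ => ?_)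
    (norm_nonneg _)
  rw [Nat.descFactorial_eq_factorial_mul_choose, Nat.cast_mul, mul_assoc, mul_pow]
  refine mul_le_mul_of_nonneg_left ?_ (by positivity)
  have hU0 : 0 ≤ U i := by linarith [hU i]
  refine mul_le_mul ?_ ?_ (by positivity) (by positivity)
  · exact_mod_cast Nat.choose_le_two_pow _ _
  · exact (pow_le_pow_left₀ (norm_nonneg _) (hx i) _).trans
      (pow_le_pow_right₀ (hU i) (by simp))

end Crest.Agent.R11
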