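import Crest.Agent.R11.Ana

set_option autoImplicit false

/-! Integrality, sizes and Siegel's lemma. -/

namespace Crest.Agent.R11

open Finsupp hiding some
open MvPolynomial

section gen
variable {ι : Type} [Fintype ι] [DecidableEq ι]

noncomputable def l1 (G : MvPolynomial ι ℂ) : ℝ := ∑ β ∈ G.support, ‖coeff β G‖

lemma l1_nonneg (G : MvPolynomial ι ℂ) : 0 ≤ l1 G := Finset.sum_nonneg fun _ _ => norm_nonneg _

lemma l1_eq {G : MvPolynomial ι ℂ} {S : Finset (ι →₀ ℕ)} (h : G.support ⊆ S) :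
    l1 G = ∑ β ∈ S, ‖coeff β G‖ :=
  Finset.sum_subset h fun β _ hβ => by simpa using hβ

lemma norm_coeff_le (G : MvPolynomial ι ℂ) (β : ι →₀ ℕ) : ‖coeff β G‖ ≤ l1 G := by
  rw [l1_eq (Finset.subset_insert β _)]
  exact Finset.single_le_sum (f := fun β => ‖coeff β G‖) (fun _ _ => norm_nonneg _)
    (Finset.mem_insert_self _ _)

lemma l1_add (F G : MvPolynomial ι ℂ) : l1 (F + G) ≤ l1 F + l1 G := by
  rw [l1_eq (MvPolynomial.support_add (p := F) (q := G)), l1_eq (G := F) Finset.subset_union_left,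
    l1_eq (G := G) Finset.subset_union_right, ← Finset.sum_add_distrib]
  exact Finset.sum_le_sum fun β _ => by rw [coeff_add]; exact norm_add_le _ _

lemma l1_sum {α : Type} (s : Finset α) (F : α → MvPolynomial ι ℂ) :
    l1 (∑ a ∈ s, F a) ≤ ∑ a ∈ s, l1 (F a) := by
  classical
  induction s using Finset.induction_on with
  | empty => simp [l1]
  | insert a s ha ih =>
    rw [Finset.sum_insert ha, Finset.sum_insert ha]
    exact (l1_add _ _).trans (by linarith)

lemma l1_monomial (β : ι →₀ ℕ) (c : ℂ) : l1 (monomial β c) = ‖c‖ := by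
  rw [l1_eq support_monomial_subset]; simp

lemma l1_C (c : ℂ) : l1 (C c : MvPolynomial ι ℂ) = ‖c‖ := l1_monomial 0 c

lemma l1_X (i : ι) : l1 (X i : MvPolynomial ι ℂ) = 1 := (l1_monomial (single i 1) 1).trans norm_one

lemma l1_mul (F G : MvPolynomial ι ℂ) : l1 (F * G) ≤ l1 F * l1 G := by
  conv_lhs => rw [F.as_sum, G.as_sum, Finset.sum_mul_sum]
  conv_rhs => rw [l1, l1, Finset.sum_mul_sum]
  refine (l1_sum _ _).trans (Finset.sum_le_sum fun a _ => (l1_sum _ _).trans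
    (Finset.sum_le_sum fun b _ => ?_))
  rw [monomial_mul, l1_monomial, norm_mul]

lemma l1_pow {F : MvPolynomial ι ℂ} {c : ℝ} (h : l1 F ≤ c) (r : ℕ) : l1 (F ^ r) ≤ c ^ r := by
  induction r with
  | zero => simpa using (l1_C (ι := ι) 1).le
  | succ r ih =>
    rw [pow_succ, pow_succ]
    exact (l1_mul _ _).trans (mul_le_mul ih h (l1_nonneg _) ((l1_nonneg _).trans ih))

lemma l1_prod {α : Type} (s : Finset α) {F : α → MvPolynomial ι ℂ} {c : α → ℝ}
    (h : ∀ a, l1 (F a) ≤ c a) : l1 (∏ a ∈ s, F a) ≤ ∏ a ∈ s, c a := by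
  classical
  induction s using Finset.induction_on with
  | empty => simpa using (l1_C (ι := ι) 1).le
  | insert a s ha ih =>
    rw [Finset.prod_insert ha, Finset.prod_insert ha]
    exact (l1_mul _ _).trans (mul_le_mul (h a) ih (l1_nonneg _) ((l1_nonneg _).trans (h a)))

/-- polynomials with coefficients in `Λ` in the scaled variables `r i * X i` -/
def IntS (Λ : Subring ℂ) (r : ι → ℕ) : Subring (MvPolynomial ι ℂ) where
  carrier := {G | ∀ β, ∃ c ∈ Λ, coeff β G = (∏ i, (r i : ℂ) ^ β i) * c}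
  mul_mem' := fun {F G} hF hG β => by
    choose c hc hc' using hF
    choose d hd hd' using hG
    refine ⟨∑ p ∈ Finset.HasAntidiagonal.antidiagonal β, c p.1 * d p.2,
      sum_mem fun p _ => mul_mem (hc _) (hd _), ?_⟩
    rw [coeff_mul, Finset.mul_sum]
    refine Finset.sum_congr rfl fun p hp => ?_
    rw [Finset.HasAntidiagonal.mem_antidiagonal] at hp
    rw [hc', hd', ← hp]
    simp only [Finsupp.coe_add, Pi.add_apply, pow_add, Finset.prod_mul_distrib]
    ring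
  one_mem' := fun β => by
    rw [coeff_one]
    split_ifs with h
    · exact ⟨1, one_mem _, by simp [← h]⟩
    · exact ⟨0, zero_mem _, by simp⟩
  add_mem' := fun {F G} hF hG β => by
    obtain ⟨c, hc, hc'⟩ := hF β
    obtain ⟨d, hd, hd'⟩ := hG β
    exact ⟨c + d, add_mem hc hd, by rw [coeff_add, hc', hd', mul_add]⟩
  zero_mem' := fun β => ⟨0, zero_mem _, by simp⟩
  neg_mem' := fun {F} hF β => by
    obtain ⟨c, hc, hc'⟩ := hF β
    exact ⟨-c, neg_mem hc, by rw [coeff_neg, hc', mul_neg]⟩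

lemma monomial_mem_IntS {Λ : Subring ℂ} (r : ι → ℕ) (β : ι →₀ ℕ) {c : ℂ} (hc : c ∈ Λ) :
    monomial β ((∏ i, (r i : ℂ) ^ β i) * c) ∈ IntS Λ r := by
  intro γ
  rw [coeff_monomial]
  split_ifs with h
  · exact ⟨c, hc, by rw [h]⟩
  · exact ⟨0, zero_mem _, by simp⟩

lemma C_mem_IntS {Λ : Subring ℂ} (r : ι → ℕ) {c : ℂ} (hc : c ∈ Λ) : C c ∈ IntS Λ r := by
  simpa using monomial_mem_IntS r 0 hc

lemma X_mem_IntS (Λ : Subring ℂ) (r : ι → ℕ) (i : ι) : C (r i : ℂ) * X i ∈ IntS Λ r := by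
  have := monomial_mem_IntS r (single i 1) (one_mem Λ)
  rw [Finset.prod_eq_single i (fun j _ hj => by simp [single_eq_of_ne hj]) (by simp)] at this
  rw [C_mul_X_eq_monomial]
  simpa using this

attribute [local instance] Matrix.seminormedAddCommGroup in
lemma siegel (Eq Un : Finset (ι →₀ ℕ)) (G : (ι →₀ ℕ) → MvPolynomial ι ℂ) {r : ι → ℕ}
    (hr : ∀ i, 1 ≤ r i) (hG : ∀ a, G a ∈ IntS ⊥ r) {B : ℝ} (hB1 : 1 ≤ B)
    (hB : ∀ a ∈ Un, l1 (G a) ≤ B) (h0 : 0 < Eq.card) (h1 : Eq.card < Un.card) :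
    ∃ t : (ι →₀ ℕ) → ℤ, (∃ a ∈ Un, t a ≠ 0) ∧
      (∀ β ∈ Eq, coeff β (∑ a ∈ Un, C (t a : ℂ) * G a) = 0) ∧
      ∀ a ∈ Un, |(t a : ℝ)| ≤ (Un.card * B) ^ ((Eq.card : ℝ) / (Un.card - Eq.card)) := by
  have h2 : ∀ a β, ∃ z : ℤ, coeff β (G a) = (∏ i, (r i : ℂ) ^ β i) * z := by
    intro a β
    obtain ⟨c, hc, h⟩ := hG a β
    obtain ⟨z, rfl⟩ := Subring.mem_bot.1 hc
    exact ⟨z, h⟩
  choose z hz using h2
  let A : Matrix Eq Un ℤ := fun β a => z a β
  obtain ⟨t, ht0, ht1, ht2⟩ := Int.Matrix.exists_ne_zero_int_vec_norm_le A (by simpa using h1)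
    (by simpa using h0)
  have hA : ‖A‖ ≤ B := by
    rw [Matrix.norm_le_iff (by linarith)]
    intro β a
    refine le_trans ?_ ((norm_coeff_le (G a) β).trans (hB a a.2))
    rw [hz, norm_mul, Complex.norm_intCast, Int.norm_eq_abs]
    refine le_mul_of_one_le_left (abs_nonneg _) ?_
    rw [norm_prod]
    refine Finset.one_le_prod fun i _ => ?_
    rw [norm_pow, Complex.norm_natCast]
    exact one_le_pow₀ (by exact_mod_cast hr i)
  refine ⟨fun a => if h : a ∈ Un then t ⟨a, h⟩ else 0, ?_, fun β hβ => ?_, fun a ha => ?_⟩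
  · obtain ⟨a, ha⟩ := Function.ne_iff.1 ht0
    exact ⟨a, a.2, by simpa using ha⟩
  · have h3 := congrFun ht1 ⟨β, hβ⟩
    simp only [Matrix.mulVec, dotProduct, Pi.zero_apply, A] at h3
    rw [coeff_sum, ← Finset.sum_coe_sort]
    simp only [coeff_C_mul, hz, Finset.coe_mem, dif_pos]
    have h4 : ((∑ a : Un, z a β * t a : ℤ) : ℂ) = 0 := by rw [h3]; simp
    push_cast at h4
    calc _ = (∏ i, (r i : ℂ) ^ β i) * ∑ a : Un, (z a β : ℂ) * t a := by
          rw [Finset.mul_sum]; exact Finset.sum_congr rfl fun a _ => by ring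
      _ = 0 := by rw [h4, mul_zero]
  · simp only [ha, dif_pos]
    rw [← Int.norm_eq_abs]
    refine (norm_le_pi_norm t _).trans (ht2.trans ?_)
    simp only [Fintype.card_coe]
    have : (Eq.card : ℝ) < Un.card := by exact_mod_cast h1
    refine Real.rpow_le_rpow (by positivity) ?_ (div_nonneg (by positivity) (by linarith))
    gcongr
    exact max_le hB1 hA

/-- Gaussian integers -/
noncomputable def Gauss : Subring ℂ := GaussianInt.toComplex.range

lemma one_le_norm_of_Gauss {c : ℂ} (hc : c ∈ Gauss) (h0 : c ≠ 0) : 1 ≤ ‖c‖ := by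
  obtain ⟨x, rfl⟩ := hc
  have h1 : x ≠ 0 := by rintro rfl; simp at h0
  have h2 : (1 : ℝ) ≤ Complex.normSq (x : ℂ) := by
    rw [← GaussianInt.intCast_real_norm]
    exact_mod_cast GaussianInt.norm_pos.2 h1
  rw [Complex.normSq_eq_norm_sq] at h2
  exact (one_le_sq_iff₀ (norm_nonneg _)).1 h2

lemma I_mem_Gauss : Complex.I ∈ Gauss := ⟨⟨0, 1⟩, by simp [GaussianInt.toComplex_def]⟩

lemma prod_pow_le_exp {w : ι → ℕ} {c : ι → ℝ} {κ N : ℝ} (hκ : 0 ≤ κ) (hc0 : ∀ i, 0 ≤ c i)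
    (hc : ∀ i, c i ≤ Real.exp (κ * w i)) {a : ι →₀ ℕ} (ha : ((weight w a : ℕ) : ℝ) < N) :
    ∏ i, c i ^ a i ≤ Real.exp (κ * N) := by
  calc ∏ i, c i ^ a i ≤ ∏ i, Real.exp (κ * w i) ^ a i :=
        Finset.prod_le_prod (fun i _ => pow_nonneg (hc0 i) _)
          fun i _ => pow_le_pow_left₀ (hc0 i) (hc i) _
    _ = Real.exp (κ * (weight w a : ℕ)) := by
        rw [weight_eq_sum]
        push_cast
        rw [Finset.mul_sum, Real.exp_sum]
        refine Finset.prod_congr rfl fun i _ => ?_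
        rw [← Real.exp_nat_mul]; congr 1; simp; ring
    _ ≤ _ := Real.exp_le_exp.2 (mul_le_mul_of_nonneg_left ha.le hκ)

end gen

variable {σ : Type} [Fintype σ] [DecidableEq σ]

lemma phi_monomial (n : σ → ℕ) (ξ : Option σ → ℂ) (r : Option σ → ℕ) (a : Option σ →₀ ℕ) :
    phi n ξ (monomial a (∏ i, (r i : ℂ) ^ a i)) = ∏ i, (C (r i : ℂ) * phi n ξ (X i)) ^ a i := by
  rw [monomial_eq, Finsupp.prod_fintype _ _ (by simp), map_mul, phi_C]
  simp [mul_pow, Finset.prod_mul_distrib]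

lemma phi_monomial_mem {Λ : Subring ℂ} {n : σ → ℕ} {ξ : Option σ → ℂ} {r : Option σ → ℕ}
    (hξ : ξ none = 1) (hr : r none = 1) (h1 : ∀ l, r (some l) * ξ (some l) ∈ Λ)
    (h2 : ∀ l, Nat.lcmUpto (n l) ∣ r (some l)) (a : Option σ →₀ ℕ) :
    phi n ξ (monomial a (∏ i, (r i : ℂ) ^ a i)) ∈ IntS Λ r := by
  rw [phi_monomial]
  have hX : (X none : R σ) ∈ IntS Λ r := by simpa [hr] using X_mem_IntS Λ r none
  refine prod_mem fun i _ => pow_mem ?_ _
  cases i with
  | none =>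
    rw [phi_X_none, hξ, hr]
    simpa using add_mem (one_mem _) hX
  | some l =>
    rw [phi_X_some, mul_add, mul_add, ← map_mul, Lg, Finset.mul_sum]
    refine add_mem (add_mem (C_mem_IntS r (h1 l)) (sum_mem fun j hj => ?_)) (X_mem_IntS Λ r _)
    rw [← mul_assoc, ← map_mul]
    refine mul_mem (C_mem_IntS r ?_) (pow_mem hX _)
    have h3 : j + 1 ∣ r (some l) := by
      refine Dvd.dvd.trans ?_ (h2 l)
      exact Finset.dvd_lcm (f := id) (Finset.mem_Icc.2 ⟨by omega, Finset.mem_range.1 hj⟩)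
    obtain ⟨e, he⟩ := h3
    have h4 : (j + 1 : ℂ) ≠ 0 := Nat.cast_add_one_ne_zero j
    rw [he]
    push_cast
    rw [show (j + 1 : ℂ) * e * ((-1) ^ j / (j + 1)) = e * (-1) ^ j by field_simp]
    exact mul_mem (natCast_mem _ _) (pow_mem (neg_mem (one_mem _)) _)

lemma l1_Lg (n : ℕ) : l1 (Lg σ ℂ n) ≤ n := by
  refine (l1_sum _ _).trans ?_
  have : ∀ j ∈ Finset.range n,
      l1 (C ((-1) ^ j / (j + 1 : ℂ)) * X none ^ (j + 1) : R σ) ≤ 1 := by
    intro j _
    refine (l1_mul _ _).trans (mul_le_one₀ ?_ (l1_nonneg _) ?_)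
    · rw [l1_C, norm_div, norm_pow, norm_neg, norm_one, one_pow]
      have : (j + 1 : ℂ) = ((j + 1 : ℕ) : ℂ) := by push_cast; rfl
      rw [this, Complex.norm_natCast]
      exact div_le_one_of_le₀ (by exact_mod_cast Nat.succ_pos j) (by positivity)
    · simpa using l1_pow (l1_X (ι := Option σ) none).le (j + 1)
  simpa using Finset.sum_le_sum this

lemma l1_phi_monomial {n : σ → ℕ} {g : ℕ} {r : Option σ → ℕ} {κ N : ℝ} (hκ : 0 ≤ κ)
    (h1 : r none * 2 ≤ Real.exp (κ * g))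
    (h2 : ∀ l, r (some l) * (n l + 1) ≤ Real.exp (κ * n l)) {a : Option σ →₀ ℕ}
    (ha : ((weight (wt g n) a : ℕ) : ℝ) < N) :
    l1 (phi n (pt0 σ) (monomial a (∏ i, (r i : ℂ) ^ a i))) ≤ Real.exp (κ * N) := by
  rw [phi_monomial]
  refine (l1_prod _ fun i => l1_pow le_rfl _).trans
    (prod_pow_le_exp hκ (fun i => l1_nonneg _) (fun i => ?_) ha)
  refine (l1_mul _ _).trans ?_
  rw [l1_C, Complex.norm_natCast]
  cases i with
  | none =>
    refine le_trans (mul_le_mul_of_nonneg_left ?_ (by positivity)) h1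
    rw [phi_X_none]
    simp only [pt0, Option.elim_none, map_one, one_mul]
    refine (l1_add _ _).trans ?_
    rw [l1_X, ← C_1, l1_C]; norm_num
  | some l =>
    refine le_trans (mul_le_mul_of_nonneg_left ?_ (by positivity)) (h2 l)
    rw [phi_X_some]
    simp only [pt0, Option.elim_some, map_zero, zero_add]
    refine (l1_add _ _).trans ?_
    rw [l1_X]
    linarith [l1_Lg (σ := σ) (n l)]

end Crest.Agent.R11
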