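import Crest.Agent.R11.Count

set_option autoImplicit false

/-! A Bezout type inequality by Noetherian induction on ideals. -/

namespace Crest.Agent.R11

variable {A R : Type} [CommRing A] [IsDomain A] [CommRing R] [Algebra A R]

/-- Hilbert function of an ideal for the filtration `W` -/
noncomputable def Hilb (W : ℝ → Submodule A R) (𝔞 : Ideal R) (x : ℝ) : Cardinal :=
  Module.rank A ((W x).map (Ideal.Quotient.mkₐ A 𝔞).toLinearMap)

lemma Hilb_super (W : ℝ → Submodule A R)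
    (hW : ∀ a b f g, f ∈ W a → g ∈ W b → f * g ∈ W (a + b)) (𝔞 : Ideal R) {f : R} {e : ℝ}
    (hf : f ∈ W e) (x : ℝ) :
    Hilb W (𝔞.colon {f}) (x - e) + Hilb W (𝔞 ⊔ Ideal.span {f}) x ≤ Hilb W 𝔞 x := by
  set M := (W x).map (Ideal.Quotient.mkₐ A 𝔞).toLinearMap with hM
  let π : (R ⧸ 𝔞) →ₐ[A] (R ⧸ (𝔞 ⊔ Ideal.span {f})) := Ideal.Quotient.factorₐ A le_sup_left
  let π' : M →ₗ[A] (R ⧸ (𝔞 ⊔ Ideal.span {f})) := π.toLinearMap.domRestrict M
  have h1 := LinearMap.rank_range_add_rank_ker π'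
  have h2 : LinearMap.range π' =
      (W x).map (Ideal.Quotient.mkₐ A (𝔞 ⊔ Ideal.span {f})).toLinearMap := by
    ext y
    simp only [LinearMap.mem_range, Submodule.mem_map]
    constructor
    · rintro ⟨⟨_, g, hg, rfl⟩, rfl⟩
      exact ⟨g, hg, rfl⟩
    · rintro ⟨g, hg, rfl⟩
      exact ⟨⟨_, g, hg, rfl⟩, rfl⟩
  let μ : (R ⧸ 𝔞.colon {f}) →ₗ[A] (R ⧸ 𝔞) :=
    (Submodule.mapQ (𝔞.colon {f}) 𝔞 (LinearMap.mulRight R f)
      (fun g hg => by simpa using Submodule.mem_colon_singleton.1 hg)).restrictScalars A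
  have hμ : Function.Injective μ := by
    rw [injective_iff_map_eq_zero]
    intro y hy
    obtain ⟨g, rfl⟩ := Ideal.Quotient.mk_surjective y
    rw [Ideal.Quotient.eq_zero_iff_mem, Submodule.mem_colon_singleton]
    have : Ideal.Quotient.mk 𝔞 (g * f) = 0 := hy
    simpa using Ideal.Quotient.eq_zero_iff_mem.1 this
  have h3 : Hilb W (𝔞.colon {f}) (x - e) ≤ Module.rank A (LinearMap.ker π') := by
    set N := (W (x - e)).map (Ideal.Quotient.mkₐ A (𝔞.colon {f})).toLinearMap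
    have hmem : ∀ y : N, μ y ∈ M := by
      rintro ⟨_, g, hg, rfl⟩
      refine ⟨g * f, ?_, rfl⟩
      have := hW _ _ _ _ hg hf
      rwa [sub_add_cancel] at this
    let ν : N →ₗ[A] M := (μ.domRestrict N).codRestrict M hmem
    have hmem2 : ∀ y : N, ν y ∈ LinearMap.ker π' := by
      rintro ⟨_, g, hg, rfl⟩
      rw [LinearMap.mem_ker]
      change Ideal.Quotient.mk (𝔞 ⊔ Ideal.span {f}) (g * f) = 0
      rw [Ideal.Quotient.eq_zero_iff_mem]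
      exact Ideal.mem_sup_right (Ideal.mul_mem_left _ _ (Ideal.mem_span_singleton_self f))
    refine LinearMap.rank_le_of_injective (ν.codRestrict _ hmem2) ?_
    intro a b hab
    apply Subtype.ext
    apply hμ
    exact congrArg (fun z : LinearMap.ker π' => (z.1 : R ⧸ 𝔞)) hab
  unfold Hilb at h3 ⊢
  rw [← hM, ← h1, ← h2, add_comm]
  gcongr

theorem bez [IsNoetherianRing R] (W : ℝ → Submodule A R)
    (hW : ∀ a b f g, f ∈ W a → g ∈ W b → f * g ∈ W (a + b)) (hex : ∀ f, ∃ e, f ∈ W e)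
    (ℓ : Ideal R → ℝ → Cardinal) (mono : ∀ 𝔞, Monotone (ℓ 𝔞))
    (zero : ∀ 𝔞 x, x ≤ 0 → ℓ 𝔞 x = 0) (top : ∀ x, ℓ ⊤ x = 0)
    (sub : ∀ 𝔞 f x, ℓ 𝔞 x ≤ ℓ (𝔞.colon {f}) x + ℓ (𝔞 ⊔ Ideal.span {f}) x)
    (prime : ∀ 𝔭 : Ideal R, 𝔭.IsPrime → (∀ x, ℓ 𝔭 x ≤ Hilb W 𝔭 x) ∨
      ∃ Q N, 0 < N ∧ Q ∉ 𝔭 ∧ Q ∈ W N ∧ ∀ x, ℓ 𝔭 x ≤ ℓ 𝔭 (x - N) + ℓ (𝔭 ⊔ Ideal.span {Q}) x)
    (𝔞 : Ideal R) : ∃ c, ∀ x, ℓ 𝔞 x ≤ Hilb W 𝔞 (x + c) := by
  induction 𝔞 using IsNoetherian.induction with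
  | hgt 𝔞 ih =>
  have up : ∀ 𝔟 c c', c ≤ c' → (∀ x, ℓ 𝔟 x ≤ Hilb W 𝔟 (x + c)) →
      ∀ x, ℓ 𝔟 x ≤ Hilb W 𝔟 (x + c') := by
    intro 𝔟 c c' hc h x
    have := h (x + (c' - c))
    rw [show x + (c' - c) + c = x + c' by ring] at this
    exact (mono 𝔟 (by linarith)).trans this
  have hlt : ∀ f, f ∉ 𝔞 → 𝔞 < 𝔞 ⊔ Ideal.span {f} := by
    intro f hf
    refine lt_of_le_of_ne le_sup_left fun h => hf ?_
    rw [h]; exact Ideal.mem_sup_right (Ideal.mem_span_singleton_self f)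
  by_cases hp : Ideal.IsPrime 𝔞
  · rcases prime 𝔞 hp with h | ⟨Q, N, hN, hQ, hQW, h⟩
    · exact ⟨0, by simpa using h⟩
    · obtain ⟨c, hc⟩ := ih _ (hlt Q hQ)
      refine ⟨c, real_induction hN _ (fun x hx => by simp [zero _ x hx]) fun x _ ih2 => ?_⟩
      have h1 := Hilb_super W hW 𝔞 hQW (x + c)
      have h2 : 𝔞.colon {Q} = 𝔞 := by
        ext g
        rw [Submodule.mem_colon_singleton, smul_eq_mul]
        exact ⟨fun h => (hp.mem_or_mem h).resolve_right hQ, fun h => Ideal.mul_mem_right _ _ h⟩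
      rw [h2, show x + c - N = x - N + c by ring] at h1
      exact (h x).trans ((add_le_add ih2 (hc x)).trans h1)
  · by_cases ht : 𝔞 = ⊤
    · exact ⟨0, fun x => by simp [ht, top]⟩
    · obtain ⟨f, hf, g, hg, hfg⟩ := (Ideal.not_isPrime_iff.1 hp).resolve_left ht
      obtain ⟨c₂, hc₂⟩ := ih _ (hlt f hf)
      have : 𝔞 < 𝔞.colon {f} := by
        refine lt_of_le_of_ne (fun y hy => ?_) fun h => hg ?_
        · rw [Submodule.mem_colon_singleton, smul_eq_mul]; exact Ideal.mul_mem_right _ _ hy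
        · rw [h, Submodule.mem_colon_singleton, smul_eq_mul, mul_comm]; exact hfg
      obtain ⟨c₁, hc₁⟩ := ih _ this
      obtain ⟨e, he⟩ := hex f
      refine ⟨max (c₁ + e) c₂, fun x => ?_⟩
      have h1 := Hilb_super W hW 𝔞 he (x + max (c₁ + e) c₂)
      have h2 := up _ c₁ (max (c₁ + e) c₂ - e) (by have := le_max_left (c₁ + e) c₂; linarith) hc₁ x
      have h3 := up _ c₂ _ (le_max_right (c₁ + e) c₂) hc₂ x
      rw [← add_sub_assoc] at h2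
      exact (sub 𝔞 f x).trans ((add_le_add h2 h3).trans h1)

end Crest.Agent.R11
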