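import Crest.Agent.R11.Extra

set_option autoImplicit false

/-! The main inequality between the parameters. -/

namespace Crest.Agent.R11

open Finsupp hiding some
open MvPolynomial Filter Topology

variable {m : ℕ}

lemma exists_N (d : ℕ) {θ g δ : ℝ} (S S' : ℝ) (h : g * θ ^ d < δ) :
    ∃ N : ℝ, 0 < N ∧ g * (θ * N + S) ^ d ≤ δ * N ^ d ∧ (N + S') ^ d ≤ Real.exp N := by
  have h1 : Tendsto (fun x : ℝ => g * (θ + S * x⁻¹) ^ d) atTop (𝓝 (g * (θ + S * 0) ^ d)) :=
    (((tendsto_inv_atTop_zero.const_mul S).const_add θ).pow d).const_mul g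
  rw [mul_zero, add_zero] at h1
  have h2 := ((Real.isLittleO_pow_exp_atTop (n := d)).comp_tendsto
    (tendsto_atTop_add_const_right atTop S' tendsto_id)).bound (Real.exp_pos (-S'))
  obtain ⟨N, h3, h4, h5⟩ := ((eventually_gt_atTop 0).and ((h1.eventually (gt_mem_nhds h)).and h2)).exists
  refine ⟨N, h3, ?_, ?_⟩
  · have : θ * N + S = (θ + S * N⁻¹) * N := by field_simp
    rw [this, mul_pow, ← mul_assoc]
    exact mul_le_mul_of_nonneg_right h4.le (by positivity)
  · simp only [Function.comp, id, Real.norm_eq_abs, Real.abs_exp, ← Real.exp_add] at h5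
    rw [show -S' + (N + S') = N by ring] at h5
    exact (le_abs_self _).trans h5

lemma lcm_le_exp (n : ℕ) : (Nat.lcmUpto n : ℝ) ≤ Real.exp (6 * n) := by
  have h1 := Chebyshev.psi_le_const_mul_self (x := n) (by positivity)
  rw [Chebyshev.psi_eq_log_lcmUpto,
    Real.log_le_iff_le_exp (by exact_mod_cast Nat.lcmUpto_pos n)] at h1
  refine h1.trans (Real.exp_le_exp.2 (mul_le_mul_of_nonneg_right ?_ (by positivity)))
  have : Real.log 4 = 2 * Real.log 2 := by
    rw [show (4 : ℝ) = 2 ^ 2 by norm_num, Real.log_pow]; norm_num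
  have := Real.log_two_lt_d9
  linarith

theorem core {n : Fin m → ℕ} (hn : ∀ l, n l ≠ 0) {g K : ℕ} (hg : g ≠ 0) {p : Fin m → ℤ}
    {q : Fin m → ℕ} {μ ρ θ s τ δ : ℝ} (hρ : 0 < ρ) (hμ : 1 < μ) (hθ : 0 < θ)
    (hq1 : ∀ l, Real.exp (ρ * n l) ≤ q l) (hq2 : ∀ l, q l ≤ Real.exp (ρ * (n l + 1)))
    (happ : ∀ l, |Real.pi - p l / q l| < 1 / (q l : ℝ) ^ μ)
    (hτ : 0 < τ) (hτ1 : τ ≤ 1) (H1 : ∀ l, 1 < τ ^ (m + 1) * n l)
    (H2 : ∀ l' l, l' < l → (n l' : ℝ) < τ ^ (m + 1) * n l) (H3 : 1 < τ * g)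
    (hs : 0 < s) (hs1 : s ≤ 1) (hδ : δ ≤ 1 / 4) (hgδ : g * θ ^ (m + 1) < 2 * δ)
    (hZ : Real.exp (μ * ρ) * (7 * K + 1) ≤ g)
    (hn2 : ∀ l, 2 * (Real.exp (μ * ρ) * (7 * K + 1) + 2 * K) * Real.exp ρ ≤ Real.exp (n l))
    (hnum : ρ + 8 + 4 * δ * (2 * ρ + 8) ≤ ρ * (μ * θ - (μ - 1) * (s + (m + 1) * τ))) :
    K * s ^ (m + 1) * g ≤ 1 := by
  have hw1 := wt_ne_zero one_ne_zero hn
  have hwg := wt_ne_zero hg hn
  have hg1 : (1 : ℝ) ≤ g := by exact_mod_cast Nat.one_le_iff_ne_zero.2 hg
  have hn1 : ∀ l, (1 : ℝ) ≤ n l := fun l => by exact_mod_cast Nat.one_le_iff_ne_zero.2 (hn l)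
  have hδ0 : 0 < δ := by
    have : 0 < (g : ℝ) * θ ^ (m + 1) := by positivity
    linarith
  obtain ⟨N, hN, hN1, hN2⟩ := exists_N (m + 1) (∑ i, (wt 1 n i : ℝ)) (∑ i, (wt g n i : ℝ)) hgδ
  set Eq := (box_finite hw1 Finset.univ (θ * N)).toFinset
  set Un := (box_finite hwg Finset.univ N).toFinset
  have hEq : cnt (wt 1 n) Finset.univ (θ * N) = Eq.card := Set.ncard_eq_toFinset_card _ _
  have hUn : cnt (wt g n) Finset.univ N = Un.card := Set.ncard_eq_toFinset_card _ _
  have c1 := cnt_upper hw1 Finset.univ (θ * N) (by positivity)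
  have c2 := cnt_lower hwg Finset.univ N hN
  have c3 := cnt_upper hwg Finset.univ N hN.le
  rw [Fintype.prod_option] at c1 c2
  simp only [Finset.card_univ, Fintype.card_option, Fintype.card_fin, wt_none, wt_some,
    Nat.cast_one, one_mul, hEq, hUn] at c1 c2 c3
  have hPn : 0 < ∏ l, (n l : ℝ) := Finset.prod_pos fun l _ => by linarith [hn1 l]
  have hf : (1 : ℝ) ≤ (m + 1).factorial := by exact_mod_cast Nat.factorial_pos _
  have c4 : (Eq.card : ℝ) ≤ 2 * δ * Un.card := by
    refine le_of_mul_le_mul_left (a := g * ((m + 1).factorial * ∏ l, (n l : ℝ))) ?_ (by positivity)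
    calc _ = g * (((m + 1).factorial * ∏ l, (n l : ℝ)) * Eq.card) := by ring
      _ ≤ 2 * δ * N ^ (m + 1) := (mul_le_mul_of_nonneg_left c1 (by positivity)).trans hN1
      _ ≤ 2 * δ * _ := mul_le_mul_of_nonneg_left c2 (by positivity)
      _ = _ := by ring
  have c5 : (Un.card : ℝ) ≤ Real.exp N := by
    refine le_trans (le_mul_of_one_le_left (by positivity) ?_) (c3.trans hN2)
    refine one_le_mul_of_one_le_of_one_le hf (Finset.one_le_prod fun i _ => ?_)
    exact_mod_cast Nat.one_le_iff_ne_zero.2 (hwg i)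
  have c6 : 0 < Eq.card := Finset.card_pos.2 ⟨0, by
    simp only [Eq, Set.Finite.mem_toFinset]
    exact ⟨by simp, by simpa using mul_pos hθ hN⟩⟩
  have c6' : (0 : ℝ) < Eq.card := by exact_mod_cast c6
  have c7 : (2 : ℝ) * Eq.card ≤ Un.card := by
    have : (0 : ℝ) ≤ Un.card := by positivity
    nlinarith
  have hq0 : ∀ l, (1 : ℝ) ≤ q l := fun l => (Real.one_le_exp (by positivity)).trans (hq1 l)
  let r : Option (Fin m) → ℕ := fun o => o.elim 1 fun l => q l * Nat.lcmUpto (n l)
  have hr1 : ∀ l, (r (some l) : ℝ) ≤ Real.exp (ρ * (n l + 1) + 6 * n l) := fun l => by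
    rw [Real.exp_add]
    simp only [r, Option.elim_some, Nat.cast_mul]
    exact mul_le_mul (hq2 l) (lcm_le_exp _) (by positivity) (by positivity)
  have hr2 : ∀ l, (q l : ℝ) ≤ r (some l) := fun l => by
    simp only [r, Option.elim_some, Nat.cast_mul]
    exact le_mul_of_one_le_right (by positivity) (by exact_mod_cast Nat.lcmUpto_pos _)
  have hd : ∀ l, Nat.lcmUpto (n l) ∣ r (some l) := fun l => Dvd.intro_left _ rfl
  have hmem : ∀ a ∈ Un, ((weight (wt g n) a : ℕ) : ℝ) < N := fun a ha =>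
    ((Set.Finite.mem_toFinset _).1 ha).2
  obtain ⟨t, ⟨a₀, ha₀, ht0⟩, ht1, ht2⟩ := siegel Eq Un
    (fun a => phi n (pt0 _) (monomial a (∏ i, (r i : ℂ) ^ a i))) (r := r)
    (fun i => by
      cases i with
      | none => exact le_rfl
      | some l => exact_mod_cast (hq0 l).trans (hr2 l))
    (fun a => phi_monomial_mem rfl rfl (fun l => by simp [pt0]) hd a)
    (B := Real.exp ((2 * ρ + 7) * N)) (Real.one_le_exp (by positivity))
    (fun a ha => l1_phi_monomial (g := g) (by positivity) (by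
        have := Real.add_one_le_exp ((2 * ρ + 7) * g)
        simp only [r, Option.elim_none, Nat.cast_one, one_mul]
        nlinarith) (fun l => by
        have h1 := Real.add_one_le_exp (n l)
        refine (mul_le_mul (hr1 l) h1 (by positivity) (by positivity)).trans ?_
        rw [← Real.exp_add]
        exact Real.exp_le_exp.2 (by nlinarith [hn1 l])) (hmem a ha)) c6
    (by have : (Eq.card : ℝ) < Un.card := by linarith
        exact_mod_cast this)
  have ht3 : ∀ a ∈ Un, |(t a : ℝ)| ≤ Real.exp (4 * δ * (2 * ρ + 8) * N) := fun a ha => by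
    refine (ht2 a ha).trans ?_
    have h1 : (Un.card : ℝ) * Real.exp ((2 * ρ + 7) * N) ≤ Real.exp ((2 * ρ + 8) * N) := by
      refine (mul_le_mul_of_nonneg_right c5 (by positivity)).trans (le_of_eq ?_)
      rw [← Real.exp_add]; congr 1; ring
    have h2 : (Eq.card : ℝ) / (Un.card - Eq.card) ≤ 4 * δ := by
      rw [div_le_iff₀ (by linarith)]
      nlinarith
    refine (Real.rpow_le_rpow (by positivity) h1 (div_nonneg c6'.le (by linarith))).trans ?_
    refine (Real.rpow_le_rpow_of_exponent_le (Real.one_le_exp (by positivity)) h2).trans ?_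
    rw [← Real.exp_mul]
    exact le_of_eq (by congr 1; ring)
  have hP : phi n (pt0 _) (aux Un r t) ∈ J ℂ (wt 1 n) Finset.univ (θ * N) := by
    intro β hβ
    have := ht1 β ((Set.Finite.mem_toFinset _).2 hβ)
    rw [aux, map_sum]
    simpa only [map_mul, phi_C, Algebra.algebraMap_self, RingHom.id_apply] using this
  have hP0 : aux Un r t ≠ 0 := fun h => by
    have := coeff_aux Un r t a₀
    rw [h, if_pos ha₀, coeff_zero] at this
    refine mul_ne_zero (by exact_mod_cast ht0) (Finset.prod_ne_zero_iff.2 fun i _ =>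
      pow_ne_zero _ ?_) this.symm
    cases i with
    | none => simp [r]
    | some l =>
      have := (hq0 l).trans (hr2 l)
      have h2 : (r (some l) : ℝ) ≠ 0 := by linarith
      exact_mod_cast h2
  have hdeg : Deg (wt g n) N (aux Un r t) := fun a ha => hmem a (by
    by_contra h
    exact ha (by rw [coeff_aux, if_neg h]))
  let ω : Fin m → ℂ := fun l => 2 * ((p l / q l : ℝ) : ℂ) * Complex.I
  have happ2 : ∀ l, |Real.pi - p l / q l| * Real.exp (μ * ρ * n l) < 1 := fun l => by
    have h1 := happ l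
    rw [lt_div_iff₀ (by have := hq0 l; positivity)] at h1
    refine lt_of_le_of_lt (mul_le_mul_of_nonneg_left ?_ (abs_nonneg _)) h1
    refine le_trans (le_of_eq ?_) (Real.rpow_le_rpow (by positivity) (hq1 l) (by linarith))
    rw [← Real.exp_mul]; congr 1; ring
  have hω : ∀ l, ω l ≠ 0 := fun l => by
    refine mul_ne_zero (mul_ne_zero two_ne_zero ?_) Complex.I_ne_zero
    rw [Complex.ofReal_ne_zero]
    intro h
    have h1 := happ2 l
    rw [h, sub_zero, abs_of_pos Real.pi_pos] at h1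
    have h2 : 1 ≤ Real.exp (μ * ρ * n l) := Real.one_le_exp (by positivity)
    nlinarith [Real.pi_gt_three]
  have := zero_est hn hg hω (Finset.Icc 1 K) hP0 hN hτ hτ1 H1 H2 H3 hdeg hs hs1 fun k hk => by
    refine extrap (g := g) (κ := ρ + 7) (ρ := ρ) (lam := μ * ρ) (K := K) rfl hmem ht3
      (by positivity) hP (by exact_mod_cast (Finset.mem_Icc.1 hk).2) (by positivity)
      (by positivity) (fun l => ?_) ?_ (fun l => ?_) (fun l => (hq1 l).trans (hr2 l))
      (fun l => ?_) hd fun w hw0 hw => ?_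
    · have e : ω l - 2 * Real.pi * Complex.I =
          -2 * ((Real.pi - p l / q l : ℝ) : ℂ) * Complex.I := by
        simp only [ω]; push_cast; ring
      rw [e, norm_mul, norm_mul, Complex.norm_real, Real.norm_eq_abs]
      simp only [norm_neg, Complex.norm_ofNat, Complex.norm_I, mul_one]
      linarith [happ2 l]
    · have h1 := Real.add_one_le_exp 1
      refine (mul_le_mul_of_nonneg_right (by linarith : (2 : ℝ) ≤ Real.exp 1)
        (by positivity)).trans ?_
      rw [← Real.exp_add]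
      exact Real.exp_le_exp.2 (by nlinarith)
    · refine (mul_le_mul_of_nonneg_left (hr1 l) (by positivity)).trans ?_
      rw [show ρ * (n l + 1) + 6 * n l = ρ + (ρ + 6) * n l by ring, Real.exp_add, ← mul_assoc]
      refine (mul_le_mul_of_nonneg_right (hn2 l) (by positivity)).trans (le_of_eq ?_)
      rw [← Real.exp_add]; congr 1; ring
    · have hq : (q l : ℂ) ≠ 0 := by
        have : (q l : ℝ) ≠ 0 := by linarith [hq0 l]
        exact_mod_cast this
      have e : (r (some l) : ℂ) * ω l = (Nat.lcmUpto (n l) : ℂ) * (2 : ℕ) * (p l : ℂ) * Complex.I := by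
        simp only [r, ω, Option.elim_some]; push_cast; field_simp
      rw [e]
      exact mul_mem (mul_mem (mul_mem (natCast_mem _ _) (natCast_mem _ _)) (intCast_mem _ _))
        I_mem_Gauss
    · refine lt_of_le_of_lt (mul_le_mul_of_nonneg_right (mul_le_mul_of_nonneg_right
        (mul_le_mul_of_nonneg_right c5 (by positivity)) (by positivity)) (by positivity)) ?_
      rw [← Real.exp_add, ← Real.exp_add, ← Real.exp_add, Real.exp_lt_exp]
      have h1 := mul_lt_mul_of_pos_left hw (mul_pos hρ (sub_pos.2 hμ))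
      have h2 := mul_le_mul_of_nonneg_right hnum hN.le
      nlinarith
  simpa using this

end Crest.Agent.R11
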