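import Mathlib

set_option autoImplicit false

/-! Lattice points in weighted simplices. -/

namespace Crest.Agent.R11

open Finsupp

variable {ι : Type} [Fintype ι] [DecidableEq ι]

/-- exponent vectors supported on `A` of weight `< x` -/
def box (w : ι → ℕ) (A : Finset ι) (x : ℝ) : Set (ι →₀ ℕ) :=
  {β | β.support ⊆ A ∧ ((weight w β : ℕ) : ℝ) < x}

lemma box_finite {w : ι → ℕ} (hw : ∀ i, w i ≠ 0) (A : Finset ι) (x : ℝ) : (box w A x).Finite := by
  refine (finite_of_nat_weight_le w hw ⌈x⌉₊).subset ?_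
  intro β hβ
  have := hβ.2
  have h2 := Nat.le_ceil x
  simp only [Set.mem_setOf_eq]
  exact_mod_cast (this.le.trans h2)

noncomputable def cnt (w : ι → ℕ) (A : Finset ι) (x : ℝ) : ℕ := (box w A x).ncard

lemma cnt_nonpos (w : ι → ℕ) (A : Finset ι) {x : ℝ} (hx : x ≤ 0) : cnt w A x = 0 := by
  have : box w A x = ∅ := by
    ext β
    simp only [box, Set.mem_setOf_eq, Set.mem_empty_iff_false, iff_false, not_and, not_lt]
    intro _
    exact hx.trans (Nat.cast_nonneg _)
  simp [cnt, this]

lemma cnt_empty (w : ι → ℕ) {x : ℝ} (hx : 0 < x) : cnt w ∅ x = 1 := by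
  have : box w ∅ x = {0} := by
    ext β
    simp only [box, Set.mem_setOf_eq, Finset.subset_empty, support_eq_empty, Set.mem_singleton_iff]
    constructor
    · exact fun h => h.1
    · rintro rfl; simpa using hx
  simp [cnt, this]

lemma cnt_insert {w : ι → ℕ} (hw : ∀ i, w i ≠ 0) {A : Finset ι} {i : ι} (hi : i ∉ A) (x : ℝ) :
    cnt w (insert i A) x = cnt w A x + cnt w (insert i A) (x - w i) := by
  have h1 : box w (insert i A) x =
      box w A x ∪ (fun β => β + single i 1) '' box w (insert i A) (x - w i) := by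
    ext β
    simp only [box, Set.mem_union, Set.mem_setOf_eq, Set.mem_image]
    constructor
    · rintro ⟨h1, h2⟩
      by_cases hβ : β i = 0
      · left
        refine ⟨fun j hj => ?_, h2⟩
        rcases Finset.mem_insert.1 (h1 hj) with rfl | h
        · exact absurd hβ (mem_support_iff.1 hj)
        · exact h
      · right
        refine ⟨β - single i 1, ⟨?_, ?_⟩, ?_⟩
        · exact (support_tsub).trans h1
        · have := weight_sub_single_add (w := w) hβ
          have h3 : ((weight w (β - single i 1) : ℕ) : ℝ) + w i = (weight w β : ℕ) := by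
            exact_mod_cast this
          linarith
        · exact tsub_add_cancel_of_le (by
            rw [single_le_iff]; exact Nat.one_le_iff_ne_zero.2 hβ)
    · rintro (⟨h1, h2⟩ | ⟨γ, ⟨h1, h2⟩, rfl⟩)
      · exact ⟨h1.trans (Finset.subset_insert _ _), h2⟩
      · refine ⟨support_add.trans (Finset.union_subset h1 ?_), ?_⟩
        · exact (support_single_subset).trans (by simp)
        · rw [map_add, weight_single]; push_cast; simp only [one_smul]; linarith
  have h2 : Disjoint (box w A x) ((fun β => β + single i 1) '' box w (insert i A) (x - w i)) := by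
    rw [Set.disjoint_left]
    rintro β ⟨h1, _⟩ ⟨γ, _, rfl⟩
    exact hi (h1 (by simp))
  unfold cnt
  rw [h1, Set.ncard_union_eq h2 (box_finite hw _ _) ((box_finite hw _ _).image _),
    Set.ncard_image_of_injective _ (add_left_injective _)]

private lemma pow_diff_le {a b : ℝ} (hb : 0 ≤ b) (hab : b ≤ a) (d : ℕ) :
    a ^ (d + 1) - b ^ (d + 1) ≤ (d + 1) * (a - b) * a ^ d := by
  induction d with
  | zero => simp
  | succ d ih =>
    have ha : 0 ≤ a := hb.trans hab
    have h1 : b ^ (d + 1) ≤ a ^ (d + 1) := pow_le_pow_left₀ hb hab _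
    have h2 := mul_le_mul_of_nonneg_left ih ha
    have h3 := mul_le_mul_of_nonneg_left h1 (sub_nonneg.2 hab)
    push_cast
    have : a ^ (d + 1 + 1) - b ^ (d + 1 + 1) =
      a * (a ^ (d + 1) - b ^ (d + 1)) + (a - b) * b ^ (d + 1) := by ring
    rw [this]
    calc _ ≤ a * ((d + 1) * (a - b) * a ^ d) + (a - b) * a ^ (d + 1) := add_le_add h2 h3
      _ = _ := by ring

private lemma le_pow_diff {a b : ℝ} (hb : 0 ≤ b) (hab : b ≤ a) (d : ℕ) :
    (d + 1) * (a - b) * b ^ d ≤ a ^ (d + 1) - b ^ (d + 1) := by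
  induction d with
  | zero => simp
  | succ d ih =>
    have h1 : b ^ (d + 1) ≤ a ^ (d + 1) := pow_le_pow_left₀ hb hab _
    have h2 := mul_le_mul_of_nonneg_left ih hb
    have h3 := mul_le_mul_of_nonneg_left h1 (sub_nonneg.2 hab)
    push_cast
    have : a ^ (d + 1 + 1) - b ^ (d + 1 + 1) =
      b * (a ^ (d + 1) - b ^ (d + 1)) + (a - b) * a ^ (d + 1) := by ring
    rw [this]
    calc _ = b * ((d + 1) * (a - b) * b ^ d) + (a - b) * b ^ (d + 1) := by ring
      _ ≤ _ := add_le_add h2 h3

lemma real_induction {c : ℝ} (hc : 0 < c) (P : ℝ → Prop) (h0 : ∀ x, x ≤ 0 → P x)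
    (h : ∀ x, 0 < x → P (x - c) → P x) (x : ℝ) : P x := by
  have : ∀ r : ℕ, ∀ x, x ≤ r * c → P x := by
    intro r
    induction r with
    | zero => intro x hx; exact h0 x (by simpa using hx)
    | succ r ih =>
      intro x hx
      rcases le_or_gt x 0 with h1 | h1
      · exact h0 x h1
      · exact h x h1 (ih _ (by push_cast at hx; linarith))
  obtain ⟨r, hr⟩ := exists_nat_ge (x / c)
  exact this r x (by rwa [div_le_iff₀ hc] at hr)

lemma cnt_lower {w : ι → ℕ} (hw : ∀ i, w i ≠ 0) (A : Finset ι) :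
    ∀ x : ℝ, 0 < x → x ^ A.card ≤ (A.card.factorial * ∏ i ∈ A, (w i : ℝ)) * cnt w A x := by
  induction A using Finset.induction_on with
  | empty => intro x hx; simp [cnt_empty w hx]
  | insert i A hi ih =>
    intro x
    have hwi : (0 : ℝ) < w i := by exact_mod_cast Nat.pos_of_ne_zero (hw i)
    refine real_induction hwi (fun x => 0 < x → x ^ (insert i A).card ≤
      ((insert i A).card.factorial * ∏ i ∈ insert i A, (w i : ℝ)) * cnt w (insert i A) x)
      (fun x hx h => absurd h (not_lt.2 hx)) ?_ x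
    intro x hx ih2 _
    rw [cnt_insert hw hi]
    rw [Finset.card_insert_of_notMem hi, Finset.prod_insert hi] at ih2 ⊢
    have ih1 := ih x hx
    set F : ℝ := (A.card.factorial * ∏ i ∈ A, (w i : ℝ))
    have hF : (((A.card + 1).factorial : ℕ) * (w i * ∏ i ∈ A, (w i : ℝ))) =
      (A.card + 1) * w i * F := by simp only [F, Nat.factorial_succ]; push_cast; ring
    rw [hF] at ih2 ⊢
    push_cast
    have h3 : (A.card + 1) * w i * x ^ A.card ≤ (A.card + 1) * w i * (F * cnt w A x) :=
      mul_le_mul_of_nonneg_left ih1 (by positivity)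
    have hF0 : 0 ≤ F := by positivity
    rcases lt_or_ge 0 (x - w i) with h | h
    · have h4 := pow_diff_le h.le (by linarith : x - w i ≤ x) A.card
      have := ih2 h
      nlinarith
    · have h4 : x ^ (A.card + 1) ≤ (A.card + 1) * w i * x ^ A.card := by
        rw [pow_succ, mul_comm]
        refine mul_le_mul_of_nonneg_right ?_ (by positivity)
        have : (0 : ℝ) ≤ A.card * w i := by positivity
        linarith
      have h5 : 0 ≤ (A.card + 1) * w i * F * (cnt w (insert i A) (x - w i) : ℝ) := by positivity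
      nlinarith

lemma cnt_upper {w : ι → ℕ} (hw : ∀ i, w i ≠ 0) (A : Finset ι) :
    ∀ x : ℝ, 0 ≤ x → (A.card.factorial * ∏ i ∈ A, (w i : ℝ)) * cnt w A x ≤
      (x + ∑ i ∈ A, (w i : ℝ)) ^ A.card := by
  induction A using Finset.induction_on with
  | empty =>
    intro x hx
    rcases hx.eq_or_lt with rfl | hx
    · simp [cnt_nonpos w ∅ le_rfl]
    · simp [cnt_empty w hx]
  | insert i A hi ih =>
    intro x
    have hwi : (0 : ℝ) < w i := by exact_mod_cast Nat.pos_of_ne_zero (hw i)
    refine real_induction hwi (fun x => 0 ≤ x →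
      ((insert i A).card.factorial * ∏ i ∈ insert i A, (w i : ℝ)) * cnt w (insert i A) x ≤
        (x + ∑ i ∈ insert i A, (w i : ℝ)) ^ (insert i A).card) ?_ ?_ x
    · intro x hx h
      rw [cnt_nonpos w _ hx]
      simp only [Nat.cast_zero, mul_zero]
      positivity
    intro x hx ih2 _
    rw [cnt_insert hw hi]
    rw [Finset.card_insert_of_notMem hi, Finset.prod_insert hi, Finset.sum_insert hi] at ih2 ⊢
    have ih1 := ih x hx.le
    set F : ℝ := (A.card.factorial * ∏ i ∈ A, (w i : ℝ))
    set S : ℝ := ∑ i ∈ A, (w i : ℝ)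
    have hS : 0 ≤ S := by positivity
    have hF : (((A.card + 1).factorial : ℕ) * (w i * ∏ i ∈ A, (w i : ℝ))) =
      (A.card + 1) * w i * F := by simp only [F, Nat.factorial_succ]; push_cast; ring
    rw [hF] at ih2 ⊢
    push_cast
    have h3 : (A.card + 1) * w i * (F * cnt w A x) ≤ (A.card + 1) * w i * (x + S) ^ A.card :=
      mul_le_mul_of_nonneg_left ih1 (by positivity)
    have h4 := le_pow_diff (by positivity : 0 ≤ x + S) (by linarith : x + S ≤ x + (w i + S)) A.card
    have h5 : (A.card + 1) * w i * F * (cnt w (insert i A) (x - w i) : ℝ) ≤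
        (x + S) ^ (A.card + 1) := by
      rcases le_or_gt 0 (x - w i) with h | h
      · have := ih2 h
        rwa [show x - w i + (w i + S) = x + S by ring] at this
      · rw [cnt_nonpos w _ h.le]
        simp only [Nat.cast_zero, mul_zero]
        positivity
    rw [show x + (w i + S) - (x + S) = w i by ring] at h4
    nlinarith

/-- comparison of leading terms -/
lemma le_of_pow_le {a b c : ℝ} (d : ℕ) (h : ∀ x : ℝ, 0 < x → a * x ^ d ≤ b * (x + c) ^ d) :
    a ≤ b := by
  have h1 : Filter.Tendsto (fun x : ℝ => b * (1 + c * x⁻¹) ^ d) Filter.atTop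
      (nhds (b * (1 + c * 0) ^ d)) :=
    (((tendsto_inv_atTop_zero.const_mul c).const_add 1).pow d).const_mul b
  simp only [mul_zero, add_zero, one_pow, mul_one] at h1
  refine ge_of_tendsto h1 ?_
  filter_upwards [Filter.eventually_gt_atTop 0] with x hx
  have h2 := h x hx
  have h3 : x + c = (1 + c * x⁻¹) * x := by field_simp
  rw [h3, mul_pow, ← mul_assoc] at h2
  exact le_of_mul_le_mul_right h2 (by positivity)

/-- the asymptotic consequence of an inequality between counts -/
lemma vol_le {w w' : ι → ℕ} (hw : ∀ i, w i ≠ 0) (hw' : ∀ i, w' i ≠ 0) {A A' : Finset ι}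
    (hc : A.card = A'.card) {K : ℕ} {s c : ℝ} (hs : 0 < s)
    (h : ∀ x : ℝ, K * cnt w A (s * x) ≤ cnt w' A' (x + c)) :
    K * s ^ A.card * ∏ i ∈ A', (w' i : ℝ) ≤ ∏ i ∈ A, (w i : ℝ) := by
  set c' := max c 0
  refine le_of_pow_le A.card (c := c' + ∑ i ∈ A', (w' i : ℝ)) fun x hx => ?_
  have h1 := cnt_lower hw A (s * x) (by positivity)
  have h2 := cnt_upper hw' A' (x + c') (by positivity)
  have h3 : (K : ℝ) * cnt w A (s * x) ≤ cnt w' A' (x + c') := by
    have h4 : cnt w' A' (x + c) ≤ cnt w' A' (x + c') := by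
      refine Set.ncard_le_ncard (fun β hβ => ⟨hβ.1, hβ.2.trans_le ?_⟩) (box_finite hw' _ _)
      have := le_max_left c 0
      linarith
    exact_mod_cast (h x).trans h4
  rw [← hc] at h2
  set P : ℝ := ∏ i ∈ A, (w i : ℝ)
  set P' : ℝ := ∏ i ∈ A', (w' i : ℝ)
  have hP : 0 ≤ P := by positivity
  have hP' : 0 ≤ P' := by positivity
  set f : ℝ := ((A.card.factorial : ℕ) : ℝ)
  have hf : 0 ≤ f := by positivity
  rw [mul_pow] at h1
  calc K * s ^ A.card * P' * x ^ A.card = (K * P') * (s ^ A.card * x ^ A.card) := by ring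
    _ ≤ (K * P') * (f * P * cnt w A (s * x)) := mul_le_mul_of_nonneg_left h1 (by positivity)
    _ = (f * P * P') * (K * cnt w A (s * x)) := by ring
    _ ≤ (f * P * P') * cnt w' A' (x + c') := mul_le_mul_of_nonneg_left h3 (by positivity)
    _ = P * (f * P' * cnt w' A' (x + c')) := by ring
    _ ≤ P * (x + c' + ∑ i ∈ A', (w' i : ℝ)) ^ A.card := mul_le_mul_of_nonneg_left h2 hP
    _ = _ := by rw [add_assoc]

end Crest.Agent.R11
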