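import Crest.Agent.R11.Arith

set_option autoImplicit false

/-! Extrapolation. -/

namespace Crest.Agent.R11

open Finsupp hiding some
open MvPolynomial

variable {m : ℕ}

/-- the auxiliary polynomial -/
noncomputable def aux {ι : Type} [Fintype ι] (Un : Finset (ι →₀ ℕ)) (r : ι → ℕ)
    (t : (ι →₀ ℕ) → ℤ) : MvPolynomial ι ℂ :=
  ∑ a ∈ Un, C (t a : ℂ) * monomial a (∏ i, (r i : ℂ) ^ a i)

lemma coeff_aux {ι : Type} [Fintype ι] [DecidableEq ι] (Un : Finset (ι →₀ ℕ)) (r : ι → ℕ)
    (t : (ι →₀ ℕ) → ℤ) (a : ι →₀ ℕ) :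
    coeff a (aux Un r t) = if a ∈ Un then (t a : ℂ) * ∏ i, (r i : ℂ) ^ a i else 0 := by
  simp only [aux, coeff_sum, coeff_C_mul, coeff_monomial, mul_ite, mul_zero]
  rw [Finset.sum_ite_eq']

theorem extrap {n : Fin m → ℕ} {g : ℕ} {r : Option (Fin m) → ℕ} (hr0 : r none = 1)
    {ω : Fin m → ℂ} {Un : Finset (Option (Fin m) →₀ ℕ)} {N H θ ε κ ρ lam K : ℝ}
    (hUn : ∀ a ∈ Un, ((weight (wt g n) a : ℕ) : ℝ) < N) {t : (Option (Fin m) →₀ ℕ) → ℤ}
    (ht : ∀ a ∈ Un, |(t a : ℝ)| ≤ H) (hH : 0 ≤ H)
    (hP : phi n (pt0 _) (aux Un r t) ∈ J ℂ (wt 1 n) Finset.univ (θ * N))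
    {k : ℕ} (hk : (k : ℝ) ≤ K) (hlam : 0 < lam) (hκ : 0 ≤ κ)
    (hδ : ∀ l, ‖ω l - 2 * Real.pi * Complex.I‖ * Real.exp (lam * n l) ≤ 2)
    (hU0 : 2 * Real.exp (Real.exp lam * (7 * K + 1)) ≤ Real.exp (κ * g))
    (hU : ∀ l, 2 * (Real.exp lam * (7 * K + 1) + 2 * K) * r (some l) ≤ Real.exp (κ * n l))
    (hr : ∀ l, Real.exp (ρ * n l) ≤ r (some l))
    (hG : ∀ l, r (some l) * ω l ∈ Gauss) (hd : ∀ l, Nat.lcmUpto (n l) ∣ r (some l))
    (hnum : ∀ w : ℝ, 0 ≤ w → w < ε * N →
      Un.card * H * Real.exp (κ * N) * Real.exp (-(lam * (θ * N - w))) < Real.exp (ρ * w)) :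
    phi n (pt ω k) (aux Un r t) ∈ J ℂ (wt 1 n) Finset.univ (ε * N) := by
  set P := aux Un r t with hPdef
  by_contra hcon
  obtain ⟨β, hc, hβ, hmin⟩ := exists_min_weight hcon
  obtain ⟨L', hL', hL2⟩ := exists_cntL (β.erase none)
  have hnone : none ∉ L' := fun h => hL2 _ h (by simp)
  set s := β none
  have hL : cntL (List.replicate s none ++ L') = β := by
    rw [cntL_append, cntL_replicate, hL', single_add_erase]
  have h1 := jet_coeff (List.replicate s none ++ L') (by rwa [hL])
  rw [hL, DL_append] at h1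
  set w : ℝ := ((weight (wt 1 n) (cntL L') : ℕ) : ℝ) with hw
  have hw2 : w = ∑ l, (β (some l) : ℝ) * n l := by
    rw [hw, hL', weight_eq_sum, Fintype.sum_option]
    simp [erase_apply]
  have hw3 : w < ε * N := by
    refine lt_of_le_of_lt ?_ hβ
    rw [hw2, weight_eq_sum, Fintype.sum_option]
    simp only [wt_none, smul_eq_mul, mul_one, wt_some, Nat.cast_add, Nat.cast_sum, Nat.cast_mul]
    linarith [Nat.cast_nonneg (α := ℝ) (β none)]
  have hK : 0 ≤ K := (Nat.cast_nonneg k).trans hk
  set Z := Real.exp lam * (7 * K + 1) with hZ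
  have hE : 1 ≤ Real.exp lam := Real.one_le_exp hlam.le
  have hZ1 : 1 ≤ Z := one_le_mul_of_one_le_of_one_le hE (by linarith)
  let U : Option (Fin m) → ℝ := fun o => o.elim (Real.exp Z) fun _ => Z + 2 * K
  have hU1 : ∀ i, 1 ≤ U i := by
    intro i
    cases i with
    | none => exact Real.one_le_exp (by linarith)
    | some l => simp only [U, Option.elim_some]; linarith
  set F : ℝ := ((∏ i, (cntL L' i).factorial : ℕ) : ℝ) with hF
  have hF0 : 0 < F := by rw [hF]; exact_mod_cast Finset.prod_pos fun i _ => Nat.factorial_pos _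
  have h2 : ∑ a ∈ P.support, ‖coeff a P‖ * ∏ i, (2 * U i) ^ a i ≤
      Un.card * H * Real.exp (κ * N) := by
    have hsub : P.support ⊆ Un := fun a ha => by
      by_contra h
      exact MvPolynomial.mem_support_iff.1 ha (by rw [hPdef, coeff_aux, if_neg h])
    refine (Finset.sum_le_sum_of_subset_of_nonneg hsub fun a _ _ => mul_nonneg (norm_nonneg _)
      (Finset.prod_nonneg fun i _ => pow_nonneg (by linarith [hU1 i]) _)).trans ?_
    rw [mul_assoc, ← nsmul_eq_mul]
    refine Finset.sum_le_card_nsmul _ _ _ fun a ha => ?_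
    rw [hPdef, coeff_aux, if_pos ha, norm_mul, Complex.norm_intCast, norm_prod, mul_assoc,
      ← Finset.prod_mul_distrib]
    simp only [norm_pow, Complex.norm_natCast, ← mul_pow]
    refine mul_le_mul (ht a ha) (prod_pow_le_exp (w := wt g n) hκ
      (fun i => mul_nonneg (by positivity) (by linarith [hU1 i])) (fun i => ?_) (hUn a ha))
      (Finset.prod_nonneg fun i _ => pow_nonneg
        (mul_nonneg (by positivity) (by linarith [hU1 i])) _) hH
    cases i with
    | none => simpa [hr0, U] using hU0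
    | some l => rw [mul_comm]; exact hU l
  have h3 := cauchy (fun l => k * ω l) (DL L' P) s
    (M := F * (Un.card * H * Real.exp (κ * N)) * Real.exp (-(lam * (θ * N - w)))) fun τ hτ => by
    have e : leaf (fun l => k * ω l) (DL L' P) τ = aeval (dil n (k * (2 * Real.pi * Complex.I) + τ)
        (fun l => k * (ω l - 2 * Real.pi * Complex.I)) 1) (DL L' P) := by
      unfold leaf
      congr 2
      ext i
      cases i with
      | none => simp [dil, Complex.exp_add, Complex.exp_nat_mul_two_pi_mul_I]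
      | some l => simp [dil]; ring
    rw [e]
    refine schwarz hlam (jets hP L').1 _ _ fun ζ hζ => ?_
    rw [DL_eq_PL hnone]
    refine (norm_aeval_PL P L' hU1 fun i => ?_).trans (mul_le_mul_of_nonneg_left h2 hF0.le)
    have hz : ‖ζ * (k * (2 * Real.pi * Complex.I) + τ)‖ ≤ Z := by
      rw [norm_mul]
      refine mul_le_mul hζ.le ((norm_add_le _ _).trans ?_) (norm_nonneg _) (by positivity)
      rw [hτ]
      simp only [norm_mul, Complex.norm_natCast, Complex.norm_ofNat, Complex.norm_real,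
        Complex.norm_I, mul_one, Real.norm_eq_abs, abs_of_pos Real.pi_pos]
      have := Real.pi_lt_d2
      have h4 : (k : ℝ) * (2 * Real.pi) ≤ K * 7 :=
        mul_le_mul hk (by linarith) (by positivity) hK
      linarith
    cases i with
    | none =>
      exact (Complex.norm_exp_le_exp_norm _).trans (Real.exp_le_exp.2 hz)
    | some l =>
      refine (norm_add_le _ _).trans (add_le_add hz ?_)
      rw [norm_mul, norm_mul, norm_pow, Complex.norm_natCast]
      have h4 : ‖ζ‖ ^ n l ≤ Real.exp (lam * n l) := by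
        rw [mul_comm, Real.exp_nat_mul]
        exact pow_le_pow_left₀ (norm_nonneg _) hζ.le _
      calc _ ≤ Real.exp (lam * n l) * (K * ‖ω l - 2 * Real.pi * Complex.I‖) := by gcongr
        _ = K * (‖ω l - 2 * Real.pi * Complex.I‖ * Real.exp (lam * n l)) := by ring
        _ ≤ K * 2 := mul_le_mul_of_nonneg_left (hδ l) hK
        _ = _ := mul_comm _ _
  have e2 : leaf (fun l => k * ω l) (DL (List.replicate s none) (DL L' P)) 0 =
      aeval (pt ω k) (DL (List.replicate s none) (DL L' P)) := by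
    unfold leaf
    congr 2
    ext i
    cases i <;> simp [pt]
  have e3 : ((∏ i, (β i).factorial : ℕ) : ℝ) = s.factorial * F := by
    rw [hF, hL', Fintype.prod_option, Fintype.prod_option]
    simp [erase_apply, s]
  rw [e2, h1, norm_mul, Complex.norm_natCast, e3] at h3
  have h4 : ‖coeff β (phi n (pt ω k) P)‖ ≤
      Un.card * H * Real.exp (κ * N) * Real.exp (-(lam * (θ * N - w))) := by
    have hs : (0 : ℝ) < s.factorial := by exact_mod_cast Nat.factorial_pos s
    refine le_of_mul_le_mul_right (h3.trans (le_of_eq ?_)) (mul_pos hs hF0)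
    ring
  have h5 : phi n (pt ω k) P ∈ IntS Gauss r := by
    rw [hPdef, aux, map_sum]
    refine sum_mem fun a _ => ?_
    rw [map_mul, phi_C]
    refine mul_mem (C_mem_IntS r (intCast_mem _ _)) (phi_monomial_mem rfl hr0 (fun l => ?_) hd a)
    have := mul_mem (natCast_mem Gauss k) (hG l)
    convert this using 1
    simp [pt]; ring
  obtain ⟨c, hc1, hc2⟩ := h5 β
  have h6 : Real.exp (ρ * w) ≤ ‖coeff β (phi n (pt ω k) P)‖ := by
    have hc0 : c ≠ 0 := by rintro rfl; exact hc (by simpa using hc2)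
    rw [hc2, norm_mul]
    refine le_trans ?_ (le_mul_of_one_le_right (norm_nonneg _) (one_le_norm_of_Gauss hc1 hc0))
    rw [norm_prod, Fintype.prod_option, hr0, hw2, Finset.mul_sum, Real.exp_sum]
    simp only [Nat.cast_one, one_pow, norm_one, one_mul, norm_pow, Complex.norm_natCast]
    refine Finset.prod_le_prod (fun _ _ => by positivity) fun l _ => ?_
    rw [mul_left_comm, Real.exp_nat_mul]
    exact pow_le_pow_left₀ (by positivity) (hr l) _
  exact absurd (h6.trans h4) (not_le.2 (hnum w (by positivity) hw3))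

end Crest.Agent.R11
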