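import Crest.Agent.R11.Core

set_option autoImplicit false

/-! Choice of parameters. -/

namespace Crest.Agent.R11

open Filter Topology

lemma exists_seq {μ ρ : ℝ} (hρ : 0 < ρ)
    (h : ∀ Q : ℕ, ∃ (p : ℤ) (q : ℕ), Q ≤ q ∧ |Real.pi - p / q| < 1 / (q : ℝ) ^ μ) (T : ℝ) {A : ℝ}
    (hA : 1 ≤ A) : ∃ (n : ℕ → ℕ) (p : ℕ → ℤ) (q : ℕ → ℕ), (∀ j, T < n j) ∧
      (∀ i j, i < j → A * n i < n j) ∧ (∀ j, Real.exp (ρ * n j) ≤ q j) ∧
      (∀ j, q j ≤ Real.exp (ρ * (n j + 1))) ∧ ∀ j, |Real.pi - p j / q j| < 1 / (q j : ℝ) ^ μ := by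
  have h1 : ∀ x : ℝ, ∃ (n : ℕ) (p : ℤ) (q : ℕ), x < n ∧ Real.exp (ρ * n) ≤ q ∧
      q ≤ Real.exp (ρ * (n + 1)) ∧ |Real.pi - p / q| < 1 / (q : ℝ) ^ μ := by
    intro x
    obtain ⟨p, q, h1, h2⟩ := h ⌈Real.exp (ρ * (|x| + 1))⌉₊
    have h3 : Real.exp (ρ * (|x| + 1)) ≤ q := Nat.ceil_le.1 h1
    have hq : (0 : ℝ) < q := (Real.exp_pos _).trans_le h3
    have h4 : |x| + 1 ≤ Real.log q / ρ := by
      rw [le_div_iff₀ hρ, mul_comm, Real.le_log_iff_exp_le hq]; exact h3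
    have h5 := Nat.lt_floor_add_one (Real.log q / ρ)
    have h6 := Nat.floor_le (a := Real.log q / ρ) (by linarith [abs_nonneg x])
    refine ⟨⌊Real.log q / ρ⌋₊, p, q, by linarith [le_abs_self x], ?_, ?_, h2⟩
    · rw [← Real.le_log_iff_exp_le hq, mul_comm, ← le_div_iff₀ hρ]; exact h6
    · rw [← Real.log_le_iff_le_exp hq, mul_comm, ← div_le_iff₀ hρ]; exact h5.le
  choose n p q h1 h2 h3 h4 using h1
  let x : ℕ → ℝ := fun j => Nat.rec T (fun _ y => max T (A * n y)) j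
  have hx : ∀ j, x (j + 1) = max T (A * n (x j)) := fun j => rfl
  have h5 : ∀ j, A * n (x j) < n (x (j + 1)) := fun j =>
    (le_max_right _ _).trans_lt (hx j ▸ h1 (x (j + 1)))
  have h6 : Monotone fun j => (n (x j) : ℝ) := monotone_nat_of_le_succ fun j =>
    (le_mul_of_one_le_left (by positivity) hA).trans (h5 j).le
  refine ⟨fun j => n (x j), fun j => p (x j), fun j => q (x j), fun j => ?_, fun i j hij => ?_,
    fun j => h2 _, fun j => h3 _, fun j => h4 _⟩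
  · refine lt_of_le_of_lt ?_ (h1 (x j))
    cases j with
    | zero => exact le_rfl
    | succ j => exact le_max_left _ _
  · exact (h5 i).trans_le (h6 hij)

theorem main (μ : ℝ) (hμ : 2 < μ) :
    ∃ Q : ℕ, ∀ (p : ℤ) (q : ℕ), Q ≤ q → 1 / (q : ℝ) ^ μ ≤ |Real.pi - (p : ℝ) / (q : ℝ)| := by
  by_contra hcon
  push Not at hcon
  obtain ⟨θ, hθ1, hθ2⟩ : ∃ θ : ℝ, 1 / (μ - 1) < θ ∧ θ < 1 :=
    exists_between (by rw [div_lt_one] <;> linarith)
  have hθ : 0 < θ := lt_trans (by have : 0 < μ - 1 := by linarith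
                                  positivity) hθ1
  rw [div_lt_iff₀ (by linarith)] at hθ1
  set γ := (1 - θ) * (θ * (μ - 1) - 1) / 2 with hγ
  have hγ0 : 0 < γ := by have := mul_pos (sub_pos.2 hθ2) (sub_pos.2 hθ1); linarith
  obtain ⟨η, hη0, hη1, hη2⟩ : ∃ η : ℝ, 0 < η ∧ η ≤ 1 - θ ^ 2 ∧ η ≤ γ / (2 * (μ - 1)) := by
    have h1 : 0 < 1 - θ ^ 2 := by nlinarith
    have h2 : 0 < γ / (2 * (μ - 1)) := div_pos hγ0 (by linarith)
    exact ⟨min _ _, lt_min h1 h2, min_le_left _ _, min_le_right _ _⟩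
  rw [le_div_iff₀ (by linarith)] at hη2
  obtain ⟨δ, hδ0, hδ1, hδ2⟩ : ∃ δ : ℝ, 0 < δ ∧ δ ≤ 1 / 4 ∧ δ ≤ γ / 16 :=
    ⟨min _ _, lt_min (by norm_num) (by positivity), min_le_left _ _, min_le_right _ _⟩
  set ρ := 32 / γ with hρ
  have hρ0 : 0 < ρ := by positivity
  have hργ : ρ * γ = 32 := by rw [hρ]; field_simp
  set E := Real.exp (μ * ρ) with hE
  have hE1 : 1 ≤ E := Real.one_le_exp (by positivity)
  set s := θ ^ 2 + η with hs
  have hθi : 1 < θ⁻¹ := (one_lt_inv₀ hθ).2 hθ2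
  have e1 := (tendsto_pow_atTop_atTop_of_one_lt hθi).eventually_ge_atTop (32 * E / δ)
  have e2 := (tendsto_pow_atTop_atTop_of_one_lt
    (show 1 < s / θ ^ 2 by rw [one_lt_div (by positivity)]; linarith)).eventually_gt_atTop
    (64 * E / δ ^ 2)
  have e3 := (tendsto_pow_const_div_const_pow_of_one_lt 1 hθi).eventually
    (gt_mem_nhds (show 0 < η * δ / 2 by positivity))
  obtain ⟨d, hd0, hd1, hd2, hd3⟩ := ((eventually_ge_atTop 1).and (e1.and (e2.and e3))).exists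
  obtain ⟨m, rfl⟩ : ∃ m, d = m + 1 := ⟨d - 1, by omega⟩
  set x := δ * θ⁻¹ ^ (m + 1) with hx
  have hx1 : 32 * E ≤ x := by rwa [div_le_iff₀ hδ0, mul_comm _ δ] at hd1
  set g := ⌊x⌋₊
  have hg1 : (g : ℝ) ≤ x := Nat.floor_le (by linarith)
  have hg2 : x / 2 ≤ g := by have := Nat.lt_floor_add_one x; linarith
  set K := ⌊g / (8 * E)⌋₊
  have hK1 : (K : ℝ) * (8 * E) ≤ g := by
    rw [← le_div_iff₀ (by positivity)]; exact Nat.floor_le (by positivity)
  have hK0 : 2 ≤ g / (8 * E) := by rw [le_div_iff₀ (by positivity)]; linarith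
  have hK2 : g / (8 * E) / 2 ≤ K := by have := Nat.lt_floor_add_one (g / (8 * E)); linarith
  set τ := η / (m + 1) with hτ
  have hτ0 : 0 < τ := by positivity
  have hτ1 : τ ≤ 1 := by
    rw [hτ, div_le_one (by positivity)]
    have : (0 : ℝ) ≤ m := by positivity
    nlinarith
  have hA : 1 ≤ (τ ^ (m + 1))⁻¹ := (one_le_inv₀ (by positivity)).2 (pow_le_one₀ hτ0.le hτ1)
  obtain ⟨n, p, q, h1, h2, h3, h4, h5⟩ := exists_seq hρ0 hcon
    (max (τ ^ (m + 1))⁻¹ (2 * (E * (7 * K + 1) + 2 * K) * Real.exp ρ)) hA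
  have hτp : 0 < τ ^ (m + 1) := by positivity
  have := core (m := m) (n := fun l => n l) (fun l => by
      have := (hA.trans (le_max_left _ _)).trans_lt (h1 l)
      have h : 1 < n l := by exact_mod_cast this
      omega) (g := g) (K := K) (by
      have : (0 : ℝ) < g := by linarith
      exact_mod_cast this.ne') (p := fun l => p l) (q := fun l => q l) (μ := μ) (θ := θ) (s := s)
    (δ := δ) hρ0 (by linarith) hθ (fun l => h3 l) (fun l => h4 l) (fun l => h5 l) hτ0 hτ1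
    (fun l => by
      have := (le_max_left _ _).trans_lt (h1 l)
      rwa [inv_lt_iff_one_lt_mul₀' hτp] at this)
    (fun l' l h => by
      have := h2 l' l h
      rwa [inv_mul_lt_iff₀ hτp] at this)
    (by
      rw [pow_one, div_lt_iff₀ (by positivity)] at hd3
      rw [hτ, div_mul_eq_mul_div, one_lt_div (by positivity)]
      push_cast at hd3
      nlinarith)
    (by positivity) (by linarith) hδ1
    (by
      have : x * θ ^ (m + 1) = δ := by rw [hx, inv_pow]; field_simp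
      have h6 := mul_le_mul_of_nonneg_right hg1 (pow_pos hθ (m + 1)).le
      linarith)
    (by
      have : (1 : ℝ) ≤ K := by linarith
      nlinarith)
    (fun l => by
      have := (le_max_right _ _).trans_lt (h1 l)
      linarith [Real.add_one_le_exp (n l : ℝ)])
    (by
      have e : ((m : ℝ) + 1) * τ = η := by rw [hτ]; field_simp
      rw [e]
      have h6 : 1 + γ ≤ μ * θ - (μ - 1) * (s + η) := by rw [hs]; nlinarith
      have h7 := mul_le_mul_of_nonneg_left h6 hρ0.le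
      have h8 := mul_le_mul_of_nonneg_left hδ2 hρ0.le
      nlinarith)
  have h6 : x / 2 / (8 * E) / 2 * s ^ (m + 1) * (x / 2) ≤ K * s ^ (m + 1) * g := by
    have : x / 2 / (8 * E) / 2 ≤ K := le_trans (by gcongr) hK2
    gcongr
  have h7 : x / 2 / (8 * E) / 2 * s ^ (m + 1) * (x / 2) =
      δ ^ 2 / (64 * E) * (s / θ ^ 2) ^ (m + 1) := by
    rw [hx, div_pow, inv_pow, ← pow_mul, mul_comm 2 (m + 1), pow_mul]; field_simp; ring
  rw [div_lt_iff₀ (by positivity)] at hd2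
  have h8 : 1 < δ ^ 2 / (64 * E) * (s / θ ^ 2) ^ (m + 1) := by
    rw [div_mul_eq_mul_div, one_lt_div (by positivity)]; linarith
  linarith

end Crest.Agent.R11
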