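import Crest.Agent.R11.Bez

set_option autoImplicit false

/-! Weighted monomial ideals and colengths. -/

namespace Crest.Agent.R11

open Finsupp MvPolynomial

variable {ι : Type} [Fintype ι] [DecidableEq ι]

section ring
variable {κ : Type} [CommRing κ]

lemma box_of_add_left {w : ι → ℕ} {A : Finset ι} {x : ℝ} {a b : ι →₀ ℕ}
    (h : a + b ∈ box w A x) : a ∈ box w A x := by
  refine ⟨fun i hi => h.1 ?_, lt_of_le_of_lt ?_ h.2⟩
  · rw [Finsupp.mem_support_iff] at hi ⊢
    simp only [Finsupp.coe_add, Pi.add_apply]; omega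
  · rw [map_add]; push_cast; linarith [Nat.cast_nonneg (α := ℝ) (weight w b)]

/-- polynomials with no monomial in `box w A x` -/
def J (κ : Type) [CommRing κ] (w : ι → ℕ) (A : Finset ι) (x : ℝ) : Ideal (MvPolynomial ι κ) where
  carrier := {g | ∀ β ∈ box w A x, coeff β g = 0}
  add_mem' := fun {a b} ha hb β hβ => by rw [coeff_add, ha β hβ, hb β hβ, add_zero]
  zero_mem' := fun β _ => by simp
  smul_mem' := fun c g hg β hβ => by
    rw [smul_eq_mul, coeff_mul]
    refine Finset.sum_eq_zero fun p hp => ?_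
    rw [Finset.HasAntidiagonal.mem_antidiagonal] at hp
    rw [hg p.2 (box_of_add_left (b := p.1) (by rwa [add_comm, hp])), mul_zero]

lemma mem_J {w : ι → ℕ} {A : Finset ι} {x : ℝ} {g : MvPolynomial ι κ} :
    g ∈ J κ w A x ↔ ∀ β ∈ box w A x, coeff β g = 0 := Iff.rfl

lemma J_anti (w : ι → ℕ) (A : Finset ι) {x y : ℝ} (h : x ≤ y) : J κ w A y ≤ J κ w A x :=
  fun _ hg β hβ => hg β ⟨hβ.1, hβ.2.trans_le h⟩

lemma J_univ_le (w : ι → ℕ) (A : Finset ι) (x : ℝ) : J κ w Finset.univ x ≤ J κ w A x :=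
  fun _ hg β hβ => hg β ⟨Finset.subset_univ _, hβ.2⟩

lemma J_nonpos (w : ι → ℕ) (A : Finset ι) {x : ℝ} (h : x ≤ 0) : J κ w A x = ⊤ := by
  rw [eq_top_iff]
  intro g _ β hβ
  exact absurd (hβ.2.trans_le h) (not_lt.2 (Nat.cast_nonneg _))

lemma J_mul {w : ι → ℕ} {A : Finset ι} {x y : ℝ} {g h : MvPolynomial ι κ} (hg : g ∈ J κ w A x)
    (hh : h ∈ J κ w Finset.univ y) : g * h ∈ J κ w A (x + y) := by
  intro β hβ
  rw [coeff_mul]
  refine Finset.sum_eq_zero fun p hp => ?_
  rw [Finset.HasAntidiagonal.mem_antidiagonal] at hp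
  rw [← hp] at hβ
  by_cases h1 : ((weight w p.1 : ℕ) : ℝ) < x
  · rw [hg p.1 ⟨(box_of_add_left hβ).1, h1⟩, zero_mul]
  · have := hβ.2
    rw [map_add] at this
    push_cast at this
    rw [hh p.2 ⟨Finset.subset_univ _, by linarith [not_lt.1 h1]⟩, mul_zero]

lemma monomial_mem_J {w : ι → ℕ} {A : Finset ι} {x : ℝ} {β : ι →₀ ℕ} (c : κ)
    (h : β ∉ box w A x) : monomial β c ∈ J κ w A x := by
  intro γ hγ
  rw [coeff_monomial, if_neg]
  rintro rfl
  exact h hγ

lemma X_mem_J (w : ι → ℕ) (A : Finset ι) (i : ι) : (X i : MvPolynomial ι κ) ∈ J κ w A (w i) :=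
  monomial_mem_J 1 fun h => by simpa [weight_single] using h.2

lemma X_mem_J_of_notMem (w : ι → ℕ) {A : Finset ι} {i : ι} (hi : i ∉ A) (x : ℝ) :
    (X i : MvPolynomial ι κ) ∈ J κ w A x :=
  monomial_mem_J 1 fun h => hi (h.1 (by simp))

lemma pow_mem_J {w : ι → ℕ} {x : ℝ} {g : MvPolynomial ι κ} (hg : g ∈ J κ w Finset.univ x)
    (r : ℕ) : g ^ r ∈ J κ w Finset.univ (r * x) := by
  induction r with
  | zero => simp [J_nonpos]
  | succ r ih =>
    have := J_mul ih hg
    rw [pow_succ]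
    push_cast
    rwa [add_mul, one_mul]

lemma pderiv_mem_J {w : ι → ℕ} {x : ℝ} {g : MvPolynomial ι κ} (hg : g ∈ J κ w Finset.univ x)
    (i : ι) : pderiv i g ∈ J κ w Finset.univ (x - w i) := by
  intro β hβ
  rw [coeff_pderiv, hg _ ⟨Finset.subset_univ _, ?_⟩, zero_mul]
  have := hβ.2
  rw [map_add, weight_single]
  push_cast
  simp only [one_smul]
  linarith

lemma mem_J_one {w : ι → ℕ} (hw : ∀ i, w i ≠ 0) {g : MvPolynomial ι κ} (hg : coeff 0 g = 0) :
    g ∈ J κ w Finset.univ 1 := by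
  intro β hβ
  have h1 : weight w β < 1 := by exact_mod_cast hβ.2
  have : β = 0 := by
    ext i
    have := le_weight w (hw i) β
    simp only [Finsupp.coe_zero, Pi.zero_apply]; omega
  rw [this, hg]

lemma coeff_zero_of_mem_J {w : ι → ℕ} {A : Finset ι} {x : ℝ} (hx : 0 < x)
    {g : MvPolynomial ι κ} (hg : g ∈ J κ w A x) : coeff 0 g = 0 :=
  hg 0 ⟨by simp, by simpa using hx⟩

/-- a polynomial outside `J x` has a monomial of least weight -/
lemma exists_min_weight {w : ι → ℕ} {x : ℝ} {g : MvPolynomial ι κ}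
    (hg : g ∉ J κ w Finset.univ x) : ∃ β, coeff β g ≠ 0 ∧ ((weight w β : ℕ) : ℝ) < x ∧
      g ∈ J κ w Finset.univ (weight w β : ℕ) := by
  have h1 : ∃ β ∈ box w Finset.univ x, coeff β g ≠ 0 := by
    by_contra h
    push Not at h
    exact hg h
  obtain ⟨β₀, hβ₀, h₀⟩ := h1
  obtain ⟨β, hβ, hmin⟩ := g.support.exists_min_image (weight w) ⟨β₀, MvPolynomial.mem_support_iff.2 h₀⟩
  refine ⟨β, MvPolynomial.mem_support_iff.1 hβ, ?_, fun γ hγ => ?_⟩
  · refine lt_of_le_of_lt ?_ hβ₀.2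
    exact_mod_cast hmin β₀ (MvPolynomial.mem_support_iff.2 h₀)
  · by_contra h
    have h2 := hmin γ (MvPolynomial.mem_support_iff.2 h)
    have h3 : weight w γ < weight w β := by exact_mod_cast hγ.2
    omega

/-- iterated partial derivatives -/
noncomputable def PL (L : List ι) (g : MvPolynomial ι κ) : MvPolynomial ι κ :=
  L.foldr (fun i h => pderiv i h) g

/-- multiplicities of a list -/
noncomputable def cntL (L : List ι) : ι →₀ ℕ := (L.map fun i => single i 1).sum

@[simp] lemma PL_nil (g : MvPolynomial ι κ) : PL [] g = g := rfl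
@[simp] lemma PL_cons (i : ι) (L : List ι) (g : MvPolynomial ι κ) :
  PL (i :: L) g = pderiv i (PL L g) := rfl
@[simp] lemma cntL_nil : cntL ([] : List ι) = 0 := rfl
@[simp] lemma cntL_cons (i : ι) (L : List ι) : cntL (i :: L) = single i 1 + cntL L := by
  simp [cntL]

lemma cntL_append (L L' : List ι) : cntL (L ++ L') = cntL L + cntL L' := by simp [cntL]

lemma cntL_replicate (s : ℕ) (i : ι) : cntL (List.replicate s i) = single i s := by
  simp [cntL]

lemma exists_cntL (β : ι →₀ ℕ) : ∃ L : List ι, cntL L = β ∧ ∀ i ∈ L, β i ≠ 0 := by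
  induction β using Finsupp.induction_linear with
  | zero => exact ⟨[], rfl, by simp⟩
  | add f g hf hg =>
    obtain ⟨L, h1, h2⟩ := hf
    obtain ⟨L', h1', h2'⟩ := hg
    refine ⟨L ++ L', by rw [cntL_append, h1, h1'], fun i hi => ?_⟩
    rcases List.mem_append.1 hi with h | h
    · have := h2 i h; simp only [Finsupp.coe_add, Pi.add_apply]; omega
    · have := h2' i h; simp only [Finsupp.coe_add, Pi.add_apply]; omega
  | single i s =>
    refine ⟨List.replicate s i, cntL_replicate s i, fun j hj => ?_⟩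
    obtain ⟨h1, rfl⟩ := List.mem_replicate.1 hj
    simpa using h1

lemma coeff_PL (L : List ι) (g : MvPolynomial ι κ) (γ : ι →₀ ℕ) :
    coeff γ (PL L g) =
      coeff (γ + cntL L) g * ((∏ i, (γ i + cntL L i).descFactorial (cntL L i) : ℕ) : κ) := by
  induction L generalizing γ with
  | nil => simp
  | cons j L ih =>
    rw [PL_cons, coeff_pderiv, ih, cntL_cons, add_assoc, mul_assoc]
    congr 1
    have : (∏ i, (γ i + (single j 1 + cntL L : ι →₀ ℕ) i).descFactorial
        ((single j 1 + cntL L : ι →₀ ℕ) i)) =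
        (∏ i, ((γ + single j 1 : ι →₀ ℕ) i + cntL L i).descFactorial (cntL L i)) * (γ j + 1) := by
      rw [← Finset.mul_prod_erase _ _ (Finset.mem_univ j),
        ← Finset.mul_prod_erase _ _ (Finset.mem_univ j), mul_right_comm]
      congr 1
      · simp only [Finsupp.coe_add, Pi.add_apply, single_eq_same]
        rw [add_comm 1 (cntL L j), Nat.descFactorial_succ, mul_comm]
        congr 1
        · congr 1; ring
        · omega
      · refine Finset.prod_congr rfl fun i hi => ?_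
        have := Finset.ne_of_mem_erase hi
        simp [single_eq_of_ne this]
    rw [this]; push_cast; rfl

lemma coeff_zero_PL (L : List ι) (g : MvPolynomial ι κ) :
    coeff 0 (PL L g) = coeff (cntL L) g * ((∏ i, (cntL L i).factorial : ℕ) : κ) := by
  rw [coeff_PL]; simp [Nat.descFactorial_self]

end ring

section field
variable {κ T : Type} [Field κ] [CommRing T] [Algebra κ T]

/-- codimension of an ideal -/
noncomputable def colen (κ : Type) {T : Type} [Field κ] [CommRing T] [Algebra κ T]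
    (𝔟 : Ideal T) : Cardinal := Module.rank κ (T ⧸ 𝔟)

lemma colen_anti {𝔟 𝔠 : Ideal T} (h : 𝔟 ≤ 𝔠) : colen κ 𝔠 ≤ colen κ 𝔟 :=
  LinearMap.rank_le_of_surjective (Ideal.Quotient.factorₐ κ h).toLinearMap
    (Ideal.Quotient.factor_surjective h)

lemma colen_top : colen κ (⊤ : Ideal T) = 0 := rank_subsingleton' _ _

lemma colen_sub {𝔟 𝔠 : Ideal T} {F : T} (h : ∀ g ∈ 𝔠, g * F ∈ 𝔟) :
    colen κ 𝔟 ≤ colen κ 𝔠 + colen κ (𝔟 ⊔ Ideal.span {F}) := by
  let π : (T ⧸ 𝔟) →ₗ[κ] (T ⧸ (𝔟 ⊔ Ideal.span {F})) :=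
    (Ideal.Quotient.factorₐ κ le_sup_left).toLinearMap
  let μ : (T ⧸ 𝔠) →ₗ[κ] (T ⧸ 𝔟) :=
    (Submodule.mapQ 𝔠 𝔟 (LinearMap.mulRight T F) (fun g hg => by simpa using h g hg)).restrictScalars κ
  have h1 := LinearMap.rank_range_add_rank_ker π
  have h2 : LinearMap.ker π ≤ LinearMap.range μ := by
    intro y hy
    obtain ⟨g, rfl⟩ := Ideal.Quotient.mk_surjective y
    have : Ideal.Quotient.mk (𝔟 ⊔ Ideal.span {F}) g = 0 := hy
    rw [Ideal.Quotient.eq_zero_iff_mem, Submodule.mem_sup] at this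
    obtain ⟨a, ha, b, hb, rfl⟩ := this
    obtain ⟨c, rfl⟩ := Ideal.mem_span_singleton'.1 hb
    refine ⟨Ideal.Quotient.mk 𝔠 c, ?_⟩
    change Ideal.Quotient.mk 𝔟 (c * F) = _
    rw [map_add, Ideal.Quotient.eq_zero_iff_mem.2 ha, zero_add]
  unfold colen
  rw [← h1, add_comm]
  exact add_le_add ((Submodule.rank_mono h2).trans (rank_range_le μ)) (Submodule.rank_le _)

lemma cnt_le_colen {w : ι → ℕ} (hw : ∀ i, w i ≠ 0) (A : Finset ι) (x : ℝ) :
    (cnt w A x : Cardinal) ≤ colen κ (J κ w A x) := by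
  have hfin := box_finite hw A x
  have : LinearIndependent κ (fun β : box w A x =>
      Ideal.Quotient.mk (J κ w A x) (monomial β.1 (1 : κ))) := by
    rw [linearIndependent_iff']
    intro s c hc β hβ
    have h1 : Ideal.Quotient.mk (J κ w A x) (∑ γ ∈ s, monomial γ.1 (c γ)) = 0 := by
      rw [← hc, map_sum]
      refine Finset.sum_congr rfl fun γ _ => ?_
      rw [← Ideal.Quotient.mkₐ_eq_mk κ, ← map_smul, smul_monomial, smul_eq_mul, mul_one]
    have h2 := Ideal.Quotient.eq_zero_iff_mem.1 h1 β.1 β.2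
    rw [coeff_sum, Finset.sum_eq_single β] at h2
    · simpa using h2
    · intro γ _ hγ
      rw [coeff_monomial, if_neg fun h => hγ (Subtype.ext h)]
    · exact fun h => absurd hβ h
  have h2 := this.cardinal_le_rank
  rwa [← Set.cast_ncard hfin] at h2

end field

end Crest.Agent.R11
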