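import Crest.Agent.R11.JIdeal

set_option autoImplicit false

/-! Jets along the leaves `u = u₀ + t`, `y = y₀ e^t`. -/

namespace Crest.Agent.R11

open Finsupp hiding some
open MvPolynomial

variable {σ : Type} [Fintype σ] [DecidableEq σ]

/-- weights: `g` for the variable `none`, `n l` for `some l` -/
def wt (g : ℕ) (n : σ → ℕ) : Option σ → ℕ := fun o => o.elim g n

@[simp] lemma wt_none (g : ℕ) (n : σ → ℕ) : wt g n none = g := rfl
@[simp] lemma wt_some (g : ℕ) (n : σ → ℕ) (l : σ) : wt g n (some l) = n l := rfl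

lemma wt_ne_zero {g : ℕ} {n : σ → ℕ} (hg : g ≠ 0) (hn : ∀ l, n l ≠ 0) (i : Option σ) :
    wt g n i ≠ 0 := by cases i <;> simp [hg, hn]

lemma der_sum_apply {K T α : Type} [CommRing K] [CommRing T] [Algebra K T] (s : Finset α)
    (d : α → Derivation K T T) (f : T) : (∑ a ∈ s, d a) f = ∑ a ∈ s, d a f := by
  classical
  induction s using Finset.induction_on with
  | empty => simp
  | insert a s ha ih => simp [Finset.sum_insert ha, ih]

abbrev R (σ : Type) := MvPolynomial (Option σ) ℂ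

/-- the derivations `y ∂_y + ∑ ∂_l` and `∂_l` -/
noncomputable def D : Option σ → Derivation ℂ (R σ) (R σ) := fun o =>
  o.elim ((X none : R σ) • pderiv none + ∑ l, pderiv (some l)) (fun l => pderiv (some l))

lemma D_some (l : σ) (f : R σ) : D (some l) f = pderiv (some l) f := rfl

lemma D_none (f : R σ) : D none f = X none * pderiv none f + ∑ l, pderiv (some l) f := by
  simp [D, der_sum_apply]

noncomputable def DL (L : List (Option σ)) (f : R σ) : R σ := L.foldr (fun i h => D i h) f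

@[simp] lemma DL_nil (f : R σ) : DL [] f = f := rfl
@[simp] lemma DL_cons (i : Option σ) (L : List (Option σ)) (f : R σ) :
  DL (i :: L) f = D i (DL L f) := rfl

lemma DL_append (L L' : List (Option σ)) (f : R σ) : DL (L ++ L') f = DL L (DL L' f) := by
  simp [DL]

lemma DL_eq_PL {L : List (Option σ)} (hL : none ∉ L) (f : R σ) : DL L f = PL L f := by
  induction L with
  | nil => rfl
  | cons i L ih =>
    rw [DL_cons, PL_cons, ih fun h => hL (List.mem_cons_of_mem _ h)]
    cases i with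
    | none => simp at hL
    | some l => rfl

variable {κ : Type} [Field κ] [CharZero κ] [Algebra ℂ κ]

/-- truncated logarithm -/
noncomputable def Lg (σ κ : Type) [Field κ] (n : ℕ) : MvPolynomial (Option σ) κ :=
  ∑ j ∈ Finset.range n, C ((-1) ^ j / (j + 1 : κ)) * X none ^ (j + 1)

lemma pderiv_some_Lg (n : ℕ) (l : σ) : pderiv (some l) (Lg σ κ n) = 0 := by
  simp [Lg, map_sum]

lemma pderiv_none_Lg (n : ℕ) :
    (1 + X none) * pderiv none (Lg σ κ n) = 1 - (-X none) ^ n := by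
  induction n with
  | zero => simp [Lg]
  | succ n ih =>
    have : Lg σ κ (n + 1) = Lg σ κ n + C ((-1) ^ n / (n + 1 : κ)) * X none ^ (n + 1) := by
      simp [Lg, Finset.sum_range_succ]
    rw [this, map_add, mul_add, ih, pderiv_C_mul, pderiv_pow, pderiv_X_self]
    have h2 : (C ((-1) ^ n / (n + 1 : κ)) : MvPolynomial (Option σ) κ) * ((n + 1 : ℕ) : _) =
        (-1) ^ n := by
      have : (n + 1 : κ) ≠ 0 := by exact_mod_cast Nat.succ_ne_zero n
      rw [← map_natCast (C : κ →+* MvPolynomial (Option σ) κ), ← map_mul]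
      push_cast
      rw [div_mul_cancel₀ _ this]; simp
    rw [Nat.add_sub_cancel, mul_one, ← mul_assoc (C _), h2, neg_pow (X none : MvPolynomial (Option σ) κ) n,
      neg_pow (X none : MvPolynomial (Option σ) κ) (n + 1)]
    ring

lemma Lg_mem_span (n : ℕ) : Lg σ κ n ∈ Ideal.span {(X none : MvPolynomial (Option σ) κ)} := by
  refine Ideal.sum_mem _ fun j _ => Ideal.mul_mem_left _ _ ?_
  rw [pow_succ]
  exact Ideal.mul_mem_left _ _ (Ideal.mem_span_singleton_self _)

/-- expansion at the point `ξ` in coordinates adapted to the leaf through it -/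
noncomputable def phi (n : σ → ℕ) (ξ : Option σ → κ) : R σ →ₐ[ℂ] MvPolynomial (Option σ) κ :=
  aeval fun o => o.elim (C (ξ none) * (1 + X none))
    (fun l => C (ξ (some l)) + Lg σ κ (n l) + X (some l))

lemma phi_X_none (n : σ → ℕ) (ξ : Option σ → κ) :
    phi n ξ (X none) = C (ξ none) * (1 + X none) := by simp [phi]

lemma phi_X_some (n : σ → ℕ) (ξ : Option σ → κ) (l : σ) :
    phi n ξ (X (some l)) = C (ξ (some l)) + Lg σ κ (n l) + X (some l) := by simp [phi]

lemma phi_C (n : σ → ℕ) (ξ : Option σ → κ) (a : ℂ) : phi n ξ (C a) = C (algebraMap ℂ κ a) := by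
  simp [phi]

lemma coeff_zero_phi (n : σ → ℕ) (ξ : Option σ → κ) (f : R σ) :
    coeff 0 (phi n ξ f) = aeval ξ f := by
  rw [← constantCoeff_eq]
  induction f using MvPolynomial.induction_on with
  | C a => simp [phi_C]
  | add f g hf hg => simp [hf, hg]
  | mul_X f i hf =>
    rw [map_mul, map_mul, hf, map_mul]
    congr 1
    cases i with
    | none => simp [phi_X_none]
    | some l => simp [phi_X_some, Lg]

lemma phi_deriv (n : σ → ℕ) (ξ : Option σ → κ) (d : Derivation ℂ (R σ) (R σ))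
    (E : Derivation κ (MvPolynomial (Option σ) κ) (MvPolynomial (Option σ) κ))
    (h : ∀ i, phi n ξ (d (X i)) = E (phi n ξ (X i))) (f : R σ) :
    phi n ξ (d f) = E (phi n ξ f) := by
  induction f using MvPolynomial.induction_on with
  | C a => simp [phi_C, derivation_C]
  | add f g hf hg => simp [hf, hg]
  | mul_X f i hf => simp [hf, h]

lemma phi_D_some (n : σ → ℕ) (ξ : Option σ → κ) (l : σ) (f : R σ) :
    phi n ξ (D (some l) f) = pderiv (some l) (phi n ξ f) := by
  refine phi_deriv n ξ _ _ (fun i => ?_) f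
  cases i with
  | none => simp [D_some, phi_X_none]
  | some l' =>
    rw [D_some, phi_X_some]
    by_cases h : l' = l
    · subst h; simp [pderiv_some_Lg]
    · simp [pderiv_some_Lg, pderiv_X_of_ne, h]

lemma phi_D_none (n : σ → ℕ) (ξ : Option σ → κ) (f : R σ) :
    phi n ξ (D none f) = (1 + X none) * pderiv none (phi n ξ f) +
      ∑ l, (-X none) ^ n l * pderiv (some l) (phi n ξ f) := by
  have := phi_deriv n ξ (D none) ((1 + X none : MvPolynomial (Option σ) κ) • pderiv none +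
    ∑ l, ((-X none : MvPolynomial (Option σ) κ) ^ n l) • pderiv (some l)) (fun i => ?_) f
  · simpa [der_sum_apply] using this
  cases i with
  | none => simp [D_none, phi_X_none, der_sum_apply]
  | some l' =>
    have h1 : D none (X (some l') : R σ) = 1 := by
      rw [D_none, Finset.sum_eq_single l'] <;> simp +contextual [pderiv_X_of_ne, eq_comm]
    rw [h1, map_one, phi_X_some]
    simp only [Derivation.add_apply, Derivation.smul_apply, der_sum_apply,
      smul_eq_mul, map_add, pderiv_C, pderiv_some_Lg, zero_add]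
    rw [pderiv_X_of_ne (by simp), pderiv_none_Lg]
    simp only [mul_zero, Finset.sum_const_zero, add_zero, zero_add]
    rw [Finset.sum_eq_single l']
    · simp
    · intro l _ hl
      simp [pderiv_X_of_ne, hl.symm]
    · simp

lemma phi_D_sub {n : σ → ℕ} {ξ : Option σ → κ} {f : R σ} {v : ℝ}
    (h : phi n ξ f ∈ J κ (wt 1 n) Finset.univ v) (i : Option σ) :
    phi n ξ (D i f) - pderiv i (phi n ξ f) ∈ J κ (wt 1 n) Finset.univ (v - wt 1 n i + 1) := by
  cases i with
  | some l => simp [phi_D_some]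
  | none =>
    rw [phi_D_none, add_mul, one_mul, add_assoc, add_sub_cancel_left]
    refine Ideal.add_mem _ ?_ (Ideal.sum_mem _ fun l _ => ?_)
    · have := J_mul (X_mem_J (κ := κ) (wt 1 n) Finset.univ none) (pderiv_mem_J h none)
      refine J_anti _ _ (le_of_eq ?_) this
      simp
    · have h1 : (-X none : MvPolynomial (Option σ) κ) ∈ J κ (wt 1 n) Finset.univ _ :=
        neg_mem (X_mem_J (κ := κ) (wt 1 n) Finset.univ none)
      have := J_mul (pow_mem_J h1 (n l)) (pderiv_mem_J h (some l))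
      refine J_anti _ _ (le_of_eq ?_) this
      simp

lemma jets {n : σ → ℕ} {ξ : Option σ → κ} {f : R σ} {v : ℝ}
    (h : phi n ξ f ∈ J κ (wt 1 n) Finset.univ v) (L : List (Option σ)) :
    phi n ξ (DL L f) ∈ J κ (wt 1 n) Finset.univ (v - (weight (wt 1 n) (cntL L) : ℕ)) ∧
    phi n ξ (DL L f) - PL L (phi n ξ f) ∈
      J κ (wt 1 n) Finset.univ (v - (weight (wt 1 n) (cntL L) : ℕ) + 1) := by
  induction L with
  | nil => simpa using h
  | cons i L ih =>
    obtain ⟨ih1, ih2⟩ := ih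
    have h1 := phi_D_sub ih1 i
    have h2 := pderiv_mem_J ih1 i
    have h3 := pderiv_mem_J ih2 i
    have e : ((weight (wt 1 n) (cntL (i :: L)) : ℕ) : ℝ) =
        (weight (wt 1 n) (cntL L) : ℕ) + wt 1 n i := by
      rw [cntL_cons, map_add, weight_single]; push_cast; simp [add_comm]
    rw [e, DL_cons, PL_cons]
    constructor
    · have := Ideal.add_mem _ (J_anti _ _ (by linarith) h1) h2
      rw [sub_add_cancel] at this
      exact J_anti _ _ (by linarith) this
    · have := Ideal.add_mem _ h1 (J_anti _ _ (by linarith) h3)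
      rw [map_sub, sub_add_sub_cancel] at this
      exact J_anti _ _ (by linarith) this

/-- the coefficient of least weight is a jet -/
lemma jet_coeff {n : σ → ℕ} {ξ : Option σ → κ} {f : R σ} (L : List (Option σ))
    (h : phi n ξ f ∈ J κ (wt 1 n) Finset.univ (weight (wt 1 n) (cntL L) : ℕ)) :
    aeval ξ (DL L f) =
      coeff (cntL L) (phi n ξ f) * ((∏ i, (cntL L i).factorial : ℕ) : κ) := by
  have := coeff_zero_of_mem_J (by simp) (jets h L).2
  rwa [coeff_sub, coeff_zero_phi, coeff_zero_PL, sub_eq_zero] at this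

lemma mem_J_of_jets {n : σ → ℕ} {ξ : Option σ → κ} {f : R σ} {x : ℝ}
    (h : ∀ L, ((weight (wt 1 n) (cntL L) : ℕ) : ℝ) < x → aeval ξ (DL L f) = 0) :
    phi n ξ f ∈ J κ (wt 1 n) Finset.univ x := by
  by_contra hf
  obtain ⟨β, h1, h2, h3⟩ := exists_min_weight hf
  obtain ⟨L, rfl, -⟩ := exists_cntL β
  have h4 := jet_coeff L h3
  rw [h L h2] at h4
  refine mul_ne_zero h1 ?_ h4.symm
  exact_mod_cast Finset.prod_ne_zero_iff.2 fun i _ => Nat.factorial_ne_zero _

lemma coeff_single_phi {n : σ → ℕ} (hn : ∀ l, n l ≠ 0) (ξ : Option σ → κ) (f : R σ)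
    (i : Option σ) : coeff (single i 1) (phi n ξ f) = aeval ξ (D i f) := by
  have e : coeff (single i 1) (phi n ξ f) = constantCoeff (pderiv i (phi n ξ f)) := by
    simp [constantCoeff_eq, coeff_pderiv]
  rw [e, ← coeff_zero_phi n, ← constantCoeff_eq]
  cases i with
  | some l => rw [phi_D_some]
  | none => simp [phi_D_none, hn]

/-- colength of `𝔞` at `ξ` up to weight `x` in the directions `A` -/
noncomputable def ell (n : σ → ℕ) (ξ : Option σ → κ) (A : Finset (Option σ)) (𝔞 : Ideal (R σ))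
    (x : ℝ) : Cardinal :=
  colen κ (𝔞.map (phi n ξ) ⊔ J κ (wt 1 n) A x)

lemma ell_mono (n : σ → ℕ) (ξ : Option σ → κ) (A : Finset (Option σ)) (𝔞 : Ideal (R σ)) :
    Monotone (ell n ξ A 𝔞) :=
  fun _ _ h => colen_anti (sup_le_sup_left (J_anti _ _ h) _)

lemma ell_nonpos (n : σ → ℕ) (ξ : Option σ → κ) (A : Finset (Option σ)) (𝔞 : Ideal (R σ))
    {x : ℝ} (hx : x ≤ 0) : ell n ξ A 𝔞 x = 0 := by
  rw [ell, J_nonpos _ _ hx, sup_top_eq, colen_top]

lemma ell_top (n : σ → ℕ) (ξ : Option σ → κ) (A : Finset (Option σ)) (x : ℝ) :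
    ell n ξ A ⊤ x = 0 := by
  rw [ell, Ideal.map_top, top_sup_eq, colen_top]

lemma ell_bot {n : σ → ℕ} (hn : ∀ l, n l ≠ 0) (ξ : Option σ → κ) (A : Finset (Option σ)) (x : ℝ) :
    (cnt (wt 1 n) A x : Cardinal) ≤ ell n ξ A ⊥ x := by
  rw [ell, Ideal.map_bot, bot_sup_eq]
  exact cnt_le_colen (wt_ne_zero one_ne_zero hn) A x

lemma ell_sub {n : σ → ℕ} {ξ : Option σ → κ} (A : Finset (Option σ)) (𝔞 : Ideal (R σ)) {f : R σ}
    {v : ℝ} (h : phi n ξ f ∈ J κ (wt 1 n) Finset.univ v) (x : ℝ) :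
    ell n ξ A 𝔞 x ≤ ell n ξ A (𝔞.colon {f}) (x - v) + ell n ξ A (𝔞 ⊔ Ideal.span {f}) x := by
  unfold ell
  rw [Ideal.map_sup, Ideal.map_span, Set.image_singleton, sup_right_comm]
  refine colen_sub fun g hg => ?_
  obtain ⟨a, ha, b, hb, rfl⟩ := Submodule.mem_sup.1 hg
  rw [add_mul]
  refine Ideal.add_mem _ (Ideal.mem_sup_left ?_) (Ideal.mem_sup_right ?_)
  · have : (𝔞.colon {f}).map (phi n ξ) ≤ (𝔞.map (phi n ξ)).colon {phi n ξ f} := by
      rw [Ideal.map_le_iff_le_comap]
      intro c hc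
      rw [Ideal.mem_comap, Submodule.mem_colon_singleton, smul_eq_mul, ← map_mul]
      exact Ideal.mem_map_of_mem _ (Submodule.mem_colon_singleton.1 hc)
    exact Submodule.mem_colon_singleton.1 (this ha)
  · have := J_mul hb h
    rwa [sub_add_cancel] at this

lemma ell_sub' (n : σ → ℕ) (ξ : Option σ → κ) (A : Finset (Option σ)) (𝔞 : Ideal (R σ)) (f : R σ)
    (x : ℝ) :
    ell n ξ A 𝔞 x ≤ ell n ξ A (𝔞.colon {f}) x + ell n ξ A (𝔞 ⊔ Ideal.span {f}) x := by
  simpa using ell_sub (n := n) (ξ := ξ) A 𝔞 (f := f) (v := 0) (by simp [J_nonpos]) x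

lemma ell_prime {n : σ → ℕ} {ξ : Option σ → κ} (A : Finset (Option σ)) {𝔭 : Ideal (R σ)}
    (hp : 𝔭.IsPrime) {f : R σ} (hf : f ∉ 𝔭)
    {v : ℝ} (h : phi n ξ f ∈ J κ (wt 1 n) Finset.univ v) (x : ℝ) :
    ell n ξ A 𝔭 x ≤ ell n ξ A 𝔭 (x - v) + ell n ξ A (𝔭 ⊔ Ideal.span {f}) x := by
  have h2 : 𝔭.colon {f} = 𝔭 := by
    ext g
    rw [Submodule.mem_colon_singleton, smul_eq_mul]
    exact ⟨fun h => (hp.mem_or_mem h).resolve_right hf, fun h => Ideal.mul_mem_right _ _ h⟩
  have := ell_sub A 𝔭 h x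
  rwa [h2] at this

lemma ell_eq_zero {n : σ → ℕ} (hn : ∀ l, n l ≠ 0) {ξ : Option σ → κ} (A : Finset (Option σ))
    {𝔞 : Ideal (R σ)} {f : R σ} (hf : f ∈ 𝔞) (h : aeval ξ f ≠ 0) (x : ℝ) :
    ell n ξ A 𝔞 x = 0 := by
  have : 𝔞.map (phi n ξ) ⊔ J κ (wt 1 n) A x = ⊤ := by
    obtain ⟨r, hr⟩ := exists_nat_ge x
    set F := C (aeval ξ f)⁻¹ * phi n ξ f
    have h1 : 1 - F ∈ J κ (wt 1 n) Finset.univ 1 := by
      refine mem_J_one (wt_ne_zero one_ne_zero hn) ?_
      simp [F, coeff_zero_phi, h]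
    have h2 : (1 - F) ^ r ∈ J κ (wt 1 n) A x :=
      J_univ_le _ _ _ (J_anti _ _ (by simpa using hr) (pow_mem_J h1 r))
    have h3 : 1 ^ r - (1 - F) ^ r ∈ 𝔞.map (phi n ξ) := by
      obtain ⟨c, hc⟩ := sub_dvd_pow_sub_pow 1 (1 - F) r
      rw [hc, sub_sub_cancel]
      exact Ideal.mul_mem_right _ _ (Ideal.mul_mem_left _ _ (Ideal.mem_map_of_mem _ hf))
    rw [Ideal.eq_top_iff_one]
    have := Ideal.add_mem _ (Ideal.mem_sup_left h3) (Ideal.mem_sup_right h2)
    simpa using this
  rw [ell, this, colen_top]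

end Crest.Agent.R11
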