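import Crest.Agent.R11.Star

set_option autoImplicit false

/-! Structure of excess components. -/

namespace Crest.Agent.R11

open Finsupp hiding some
open MvPolynomial

section gen
variable {ι : Type} [Fintype ι] [DecidableEq ι]

def Supp (S : Finset ι) (f : MvPolynomial ι ℂ) : Prop := ∀ β, coeff β f ≠ 0 → ∀ i, β i ≠ 0 → i ∈ S

lemma supp_iff {S : Finset ι} {f : MvPolynomial ι ℂ} : f ∈ supported ℂ (S : Set ι) ↔ Supp S f := by
  rw [MvPolynomial.mem_supported]
  constructor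
  · intro h β hβ i hi
    exact h ((mem_vars_iff_mem_support i).2 ⟨β, MvPolynomial.mem_support_iff.2 hβ, Finsupp.mem_support_iff.2 hi⟩)
  · intro h i hi
    obtain ⟨β, h1, h2⟩ := (mem_vars_iff_mem_support i).1 hi
    exact h β (MvPolynomial.mem_support_iff.1 h1) i (Finsupp.mem_support_iff.1 h2)

lemma Supp.mono {S T : Finset ι} {f : MvPolynomial ι ℂ} (h : Supp S f) (hST : S ⊆ T) : Supp T f :=
  fun β hβ i hi => hST (h β hβ i hi)

lemma Supp.pderiv {S : Finset ι} {f : MvPolynomial ι ℂ} (h : Supp S f) (j : ι) :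
    Supp S (pderiv j f) := by
  intro β hβ i hi
  rw [coeff_pderiv] at hβ
  exact h _ (left_ne_zero_of_mul hβ) i (by simp only [Finsupp.coe_add, Pi.add_apply]; omega)

lemma Supp.pderiv_eq_zero {S : Finset ι} {f : MvPolynomial ι ℂ} (h : Supp S f) {j : ι}
    (hj : j ∉ S) : MvPolynomial.pderiv j f = 0 := by
  ext β
  rw [coeff_pderiv, coeff_zero]
  by_contra h1
  exact hj (h _ (left_ne_zero_of_mul h1) j (by simp))

lemma eq_zero_of_pderiv {f : MvPolynomial ι ℂ} {j : ι} (h : pderiv j f = 0) {β : ι →₀ ℕ}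
    (hβ : coeff β f ≠ 0) : β j = 0 := by
  have := coeff_X_mul_pderiv j f β
  rw [h, mul_zero, coeff_zero] at this
  exact_mod_cast (mul_eq_zero.1 this.symm).resolve_left hβ

def Indep (𝔭 : Ideal (MvPolynomial ι ℂ)) (S : Finset ι) : Prop := ∀ f ∈ 𝔭, Supp S f → f = 0

lemma Indep.anti {𝔭 : Ideal (MvPolynomial ι ℂ)} {S T : Finset ι} (h : Indep 𝔭 T) (hST : S ⊆ T) :
    Indep 𝔭 S := fun f hf h2 => h f hf (h2.mono hST)

lemma Indep.exists_max {𝔭 : Ideal (MvPolynomial ι ℂ)} {I : Finset ι} (h : Indep 𝔭 I) :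
    ∃ B, I ⊆ B ∧ Indep 𝔭 B ∧ ∀ x, x ∉ B → ¬ Indep 𝔭 (insert x B) := by
  classical
  obtain ⟨B, hB, hmax⟩ := (Finset.univ.filter fun B : Finset ι => I ⊆ B ∧ Indep 𝔭 B).exists_max_image
    Finset.card ⟨I, by simpa using h⟩
  simp only [Finset.mem_filter, Finset.mem_univ, true_and] at hB hmax
  refine ⟨B, hB.1, hB.2, fun x hx h2 => ?_⟩
  have := hmax _ ⟨hB.1.trans (Finset.subset_insert _ _), h2⟩
  rw [Finset.card_insert_of_notMem hx] at this
  omega

/-- elements of `𝔭` in the variables `S` of degree at most `e` in `x` -/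
def Lev (𝔭 : Ideal (MvPolynomial ι ℂ)) (S : Finset ι) (x : ι) (e : ℕ) (f : MvPolynomial ι ℂ) :
    Prop := f ∈ 𝔭 ∧ Supp S f ∧ ∀ β, coeff β f ≠ 0 → β x ≤ e

lemma exists_level {𝔭 : Ideal (MvPolynomial ι ℂ)} {I : Finset ι} {x : ι} (h : Indep 𝔭 I)
    (h' : ¬ Indep 𝔭 (insert x I)) : ∃ e, 0 < e ∧ (∃ f, Lev 𝔭 (insert x I) x e f ∧ f ≠ 0) ∧
      ∀ f ∈ 𝔭, Supp (insert x I) f → (∀ β, coeff β f ≠ 0 → β x < e) → f = 0 := by
  classical
  have h1 : ∃ e, ∃ f, Lev 𝔭 (insert x I) x e f ∧ f ≠ 0 := by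
    unfold Indep at h'
    push Not at h'
    obtain ⟨f, h1, h2, h3⟩ := h'
    exact ⟨f.support.sup (· x), f, ⟨h1, h2, fun β hβ =>
      Finset.le_sup (f := (· x)) (MvPolynomial.mem_support_iff.2 hβ)⟩, h3⟩
  have h2 := Nat.find_spec h1
  have h3 : 0 < Nat.find h1 := by
    by_contra h3
    obtain ⟨f, ⟨h4, h5, h6⟩, h7⟩ := h2
    refine h7 (h f h4 fun β hβ i hi => ?_)
    rcases Finset.mem_insert.1 (h5 β hβ i hi) with rfl | h8
    · have := h6 β hβ; omega
    · exact h8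
  refine ⟨_, h3, h2, fun f h4 h5 h6 => ?_⟩
  by_contra h7
  exact Nat.find_min h1 (Nat.sub_lt h3 one_pos)
    ⟨f, ⟨h4, h5, fun β hβ => Nat.le_sub_one_of_lt (h6 β hβ)⟩, h7⟩

lemma pderiv_notMem {𝔭 : Ideal (MvPolynomial ι ℂ)} {S : Finset ι} {x : ι} {e : ℕ} (he : 0 < e)
    (hmin : ∀ f ∈ 𝔭, Supp S f → (∀ β, coeff β f ≠ 0 → β x < e) → f = 0)
    {f : MvPolynomial ι ℂ} (hf : Lev 𝔭 S x e f) (h0 : f ≠ 0) : pderiv x f ∉ 𝔭 := by
  intro h
  have h1 : pderiv x f = 0 := hmin _ h (hf.2.1.pderiv x) fun β hβ => by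
    rw [coeff_pderiv] at hβ
    simpa using hf.2.2 _ (left_ne_zero_of_mul hβ)
  exact h0 (hmin f hf.1 hf.2.1 fun β hβ => by rw [eq_zero_of_pderiv h1 hβ]; exact he)

lemma exists_minpoly {𝔭 : Ideal (MvPolynomial ι ℂ)} {I : Finset ι} {x : ι} (h : Indep 𝔭 I)
    (h' : ¬ Indep 𝔭 (insert x I)) : ∃ f ∈ 𝔭, Supp (insert x I) f ∧ pderiv x f ∉ 𝔭 := by
  obtain ⟨e, he, ⟨f, hf, h0⟩, hmin⟩ := exists_level h h'
  exact ⟨f, hf.1, hf.2.1, pderiv_notMem he hmin hf h0⟩

lemma indep_empty {𝔭 : Ideal (MvPolynomial ι ℂ)} (hp : 𝔭.IsPrime) : Indep 𝔭 ∅ := by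
  intro f hf h
  have h1 : f = C (coeff 0 f) := by
    ext β
    rw [coeff_C]
    split_ifs with h2
    · rw [h2]
    · by_contra h3
      exact h2 (by ext i; by_contra h4; simpa using h β h3 i (Ne.symm h4))
  by_contra h0
  have h2 : coeff 0 f ≠ 0 := fun h2 => h0 (by rw [h1, h2, map_zero])
  exact hp.ne_top (Ideal.eq_top_of_isUnit_mem _ hf (h1 ▸ (IsUnit.mk0 _ h2).map C))

lemma univariate {𝔭 : Ideal (MvPolynomial ι ℂ)} (hp : 𝔭.IsPrime) {x : ι}
    (h : ¬ Indep 𝔭 {x}) : ∃ c, X x - C c ∈ 𝔭 := by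
  unfold Indep at h
  push Not at h
  obtain ⟨f, h1, h2, h3⟩ := h
  have h4 := supp_iff.2 h2
  rw [supported_eq_adjoin_X, Finset.coe_singleton, Set.image_singleton,
    Algebra.adjoin_singleton_eq_range_aeval] at h4
  obtain ⟨p, rfl⟩ := h4
  have hp0 : p ≠ 0 := by rintro rfl; simp at h3
  have h5 := (IsAlgClosed.splits p).eq_prod_roots
  change Polynomial.aeval (X x) p ∈ 𝔭 at h1
  rw [h5, map_mul, map_multiset_prod, Multiset.map_map] at h1
  rcases hp.mem_or_mem h1 with h6 | h6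
  · refine absurd (Ideal.eq_top_of_isUnit_mem _ h6 ?_) hp.ne_top
    exact ((IsUnit.mk0 _ (Polynomial.leadingCoeff_ne_zero.2 hp0)).map Polynomial.C).map _
  · obtain ⟨a, ha, h7⟩ := (hp.multiset_prod_mem_iff_exists_mem _).1 h6
    obtain ⟨c, -, rfl⟩ := Multiset.mem_map.1 ha
    exact ⟨c, by simpa using h7⟩

/-- `log y` is transcendental -/
lemma log_transc {𝔭 : Ideal (MvPolynomial ι ℂ)} {S : Finset ι} {x y : ι} (hxy : x ≠ y) {e : ℕ}
    (he : 0 < e) (hex : ∃ f, Lev 𝔭 S x e f ∧ f ≠ 0)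
    (hmin : ∀ f ∈ 𝔭, Supp S f → (∀ β, coeff β f ≠ 0 → β x < e) → f = 0)
    (hcl : ∀ f, Lev 𝔭 S x e f → f ≠ 0 → X y * pderiv y f + pderiv x f ∈ 𝔭) : False := by
  classical
  have h1 : ∃ k, ∃ f, Lev 𝔭 S x e f ∧ f ≠ 0 ∧ (f.support.filter fun β => β x = e).card = k :=
    let ⟨f, h1, h2⟩ := hex; ⟨_, f, h1, h2, rfl⟩
  obtain ⟨f, hf, h0, hk⟩ := Nat.find_spec h1
  obtain ⟨γ, hγ, hγe⟩ : ∃ γ, coeff γ f ≠ 0 ∧ γ x = e := by
    by_contra h
    push Not at h
    exact h0 (hmin f hf.1 hf.2.1 fun β hβ => lt_of_le_of_ne (hf.2.2 β hβ) (h β hβ))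
  set g := X y * pderiv y f + pderiv x f - C (γ y : ℂ) * f with hg
  have hc : ∀ β, coeff β g =
      coeff β f * ((β y : ℂ) - γ y) + coeff (β + single x 1) f * (β x + 1) := by
    intro β
    rw [hg, coeff_sub, coeff_add, coeff_X_mul_pderiv, coeff_pderiv, coeff_C_mul]; ring
  have hc2 : ∀ β, coeff β g ≠ 0 → coeff β f * ((β y : ℂ) - γ y) ≠ 0 ∨
      coeff (β + single x 1) f ≠ 0 := by
    intro β hβ
    by_contra h
    push Not at h
    exact hβ (by rw [hc, h.1, h.2]; simp)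
  have hgL : Lev 𝔭 S x e g := by
    refine ⟨Ideal.sub_mem _ (hcl f hf h0) (Ideal.mul_mem_left _ _ hf.1), fun β hβ i hi => ?_,
      fun β hβ => ?_⟩
    · rcases hc2 β hβ with h | h
      · exact hf.2.1 β (left_ne_zero_of_mul h) i hi
      · exact hf.2.1 _ h i (by simp only [Finsupp.coe_add, Pi.add_apply]; omega)
    · rcases hc2 β hβ with h | h
      · exact hf.2.2 β (left_ne_zero_of_mul h)
      · have := hf.2.2 _ h
        simp only [Finsupp.coe_add, Pi.add_apply] at this; omega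
  have hg0 : g = 0 := by
    by_contra hg0
    refine Nat.find_min h1 ?_ ⟨g, hgL, hg0, rfl⟩
    rw [← hk]
    refine Finset.card_lt_card ⟨fun β hβ => ?_, fun h => ?_⟩
    · simp only [Finset.mem_filter, MvPolynomial.mem_support_iff] at hβ ⊢
      rcases hc2 β hβ.1 with h | h
      · exact ⟨left_ne_zero_of_mul h, hβ.2⟩
      · have := hf.2.2 _ h
        simp only [Finsupp.coe_add, Pi.add_apply, single_eq_same] at this; omega
    · have := h (Finset.mem_filter.2 ⟨MvPolynomial.mem_support_iff.2 hγ, hγe⟩)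
      simp only [Finset.mem_filter, MvPolynomial.mem_support_iff] at this
      rcases hc2 γ this.1 with h | h
      · simp at h
      · have := hf.2.2 _ h
        simp only [Finsupp.coe_add, Pi.add_apply, single_eq_same] at this; omega
  have h2 := hc (γ - single x 1)
  have h3 : γ - single x 1 + single x 1 = γ := tsub_add_cancel_of_le (by rw [single_le_iff]; omega)
  have h4 : (γ - single x 1 : ι →₀ ℕ) y = γ y := by simp [single_eq_of_ne hxy.symm]
  rw [hg0, h3, h4, sub_self, mul_zero, zero_add, coeff_zero] at h2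
  exact mul_ne_zero hγ (Nat.cast_add_one_ne_zero _) h2.symm

lemma dep_single {𝔭 : Ideal (MvPolynomial ι ℂ)} {I : Finset ι} {x : ι} {e : ℕ}
    (hex : ∃ f, Lev 𝔭 (insert x I) x e f ∧ f ≠ 0)
    (hcl : ∀ f, Lev 𝔭 (insert x I) x e f → f ≠ 0 → ∀ i ∈ I, pderiv i f ∈ 𝔭) : ¬ Indep 𝔭 {x} := by
  classical
  have h1 : ∃ k, ∃ f, Lev 𝔭 (insert x I) x e f ∧ f ≠ 0 ∧ ∀ β, coeff β f ≠ 0 → degree β < k :=
    let ⟨f, h1, h2⟩ := hex
    ⟨f.support.sup degree + 1, f, h1, h2, fun β hβ =>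
      Nat.lt_succ_of_le (Finset.le_sup (f := degree) (MvPolynomial.mem_support_iff.2 hβ))⟩
  obtain ⟨f, hf, h0, hk⟩ := Nat.find_spec h1
  have h2 : ∀ i ∈ I, pderiv i f = 0 := by
    intro i hi
    by_contra h2
    have h3 : 0 < Nat.find h1 := by
      obtain ⟨β, hβ⟩ := MvPolynomial.ne_zero_iff.1 h0
      exact (Nat.zero_le _).trans_lt (hk β hβ)
    refine Nat.find_min h1 (Nat.sub_lt h3 one_pos) ⟨pderiv i f,
      ⟨hcl f hf h0 i hi, hf.2.1.pderiv i, fun β hβ => ?_⟩, h2, fun β hβ => ?_⟩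
    · rw [coeff_pderiv] at hβ
      have := hf.2.2 _ (left_ne_zero_of_mul hβ)
      simp only [Finsupp.coe_add, Pi.add_apply] at this; omega
    · rw [coeff_pderiv] at hβ
      have := hk _ (left_ne_zero_of_mul hβ)
      rw [map_add, degree_single] at this; omega
  intro h
  refine h0 (h f hf.1 fun β hβ i hi => ?_)
  rcases Finset.mem_insert.1 (hf.2.1 β hβ i hi) with rfl | h3
  · simp
  · exact absurd (eq_zero_of_pderiv (h2 i h3) hβ) hi

end gen

variable {m : ℕ}

open Classical in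
/-- initial segments of the variables -/
noncomputable def Seg (m : ℕ) (b : Bool) (k : ℕ) : Finset (Option (Fin m)) :=
  Finset.univ.filter fun i => i.elim (b = true) (fun l => (l : ℕ) < k)

@[simp] lemma none_mem_Seg {b : Bool} {k : ℕ} : none ∈ Seg m b k ↔ b = true := by simp [Seg]
@[simp] lemma some_mem_Seg {b : Bool} {k : ℕ} {l : Fin m} : some l ∈ Seg m b k ↔ (l : ℕ) < k := by
  simp [Seg]

lemma find_seg {𝔭 : Ideal (R (Fin m))} {b : Bool} (h0 : Indep 𝔭 (Seg m b 0))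
    (h1 : ¬ Indep 𝔭 (Seg m b m)) :
    ∃ l : Fin m, Indep 𝔭 (Seg m b l) ∧ ¬ Indep 𝔭 (insert (some l) (Seg m b l)) := by
  by_contra h
  push Not at h
  have : ∀ k, k ≤ m → Indep 𝔭 (Seg m b k) := by
    intro k
    induction k with
    | zero => exact fun _ => h0
    | succ k ih =>
      intro hk
      refine (h ⟨k, hk⟩ (ih (by omega))).anti fun i hi => ?_
      cases i with
      | none => simpa using hi
      | some l => simp [Fin.ext_iff] at hi ⊢; omega
  exact h1 (this m le_rfl)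

section main
variable {n : Fin m → ℕ} (hn : ∀ l, n l ≠ 0) {g : ℕ} (hg : g ≠ 0) {𝔭 : Ideal (R (Fin m))}
  (hp : 𝔭.IsPrime) (hy : X none ∉ 𝔭) {N s : ℝ} (hN : 0 < N) (hs : 0 < s) (hs1 : s ≤ 1)
  (hmin : ∀ 𝔮 : Ideal (R (Fin m)), 𝔮.IsPrime → 𝔮 < 𝔭 → ∃ Q, Q ∉ 𝔮 ∧ Deg (wt g n) N Q ∧
      ∀ L, ((weight (wt 1 n) (cntL L) : ℕ) : ℝ) < s * N → DL L Q ∈ 𝔭)
include hn hg hp hy hN hs hs1 hmin

lemma swap {B : Finset (Option (Fin m))} (hB : Indep 𝔭 B)
    (hmax : ∀ x, x ∉ B → ¬ Indep 𝔭 (insert x B)) (hnone : none ∉ B → ∃ c, X none - C c ∈ 𝔭)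
    {l : Fin m} (hl : some l ∉ B) {δ : Option (Fin m)} (hδ : δ ∈ B) {f : R (Fin m)} (hf : f ∈ 𝔭)
    (hS : Supp (insert (some l) B) f) (hD : D δ f ∉ 𝔭) :
    s ^ (m + 1) * n l ≤ wt 1 n δ := by
  have hδ' : δ ∉ Bᶜ.erase (some l) := by simp [hδ]
  have hl' : some l ∈ Bᶜ := by simpa using hl
  have hc : (insert δ (Bᶜ.erase (some l))).card = Bᶜ.card := by
    rw [Finset.card_insert_of_notMem hδ', Finset.card_erase_add_one hl']
  have := star hn hg hp (A := insert δ (Bᶜ.erase (some l))) (B := B)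
    (fun f hf h => hB f hf (supp_iff.1 h))
    (fun i => if i = δ then 1 else if i = none then 0 else 2) ?_ hN hs hmin hc
  · rw [Finset.prod_insert hδ', ← Finset.mul_prod_erase _ _ hl', hc] at this
    have h1 : ∏ i ∈ Bᶜ.erase (some l), (wt 1 n i : ℝ) ≤ ∏ i ∈ Bᶜ.erase (some l), (wt g n i : ℝ) := by
      refine Finset.prod_le_prod (fun _ _ => by positivity) fun i _ => ?_
      cases i with
      | none => simpa using Nat.one_le_iff_ne_zero.2 hg
      | some _ => simp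
    have h2 : 0 < ∏ i ∈ Bᶜ.erase (some l), (wt 1 n i : ℝ) := Finset.prod_pos fun i _ => by
      exact_mod_cast Nat.pos_of_ne_zero (wt_ne_zero one_ne_zero hn i)
    have h3 : s ^ (m + 1) ≤ s ^ Bᶜ.card := pow_le_pow_of_le_one hs.le hs1 (by
      simpa using Finset.card_le_univ Bᶜ)
    refine le_of_mul_le_mul_right (le_trans ?_ this) h2
    rw [wt_some, mul_assoc]
    gcongr
  · intro i hi
    rcases Finset.mem_insert.1 hi with rfl | hi2
    · refine ⟨f, hf, hD, fun j hj hji hr => ?_⟩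
      have hj' := (Finset.mem_insert.1 hj).resolve_left hji
      cases j with
      | none => simp [hji] at hr
      | some l' =>
        rw [D_some, hS.pderiv_eq_zero (by simpa using hj')]
        exact zero_mem _
    · have hiδ : i ≠ δ := by rintro rfl; exact hδ' hi2
      have hiB : i ∉ B := by simpa using (Finset.mem_erase.1 hi2).2
      cases i with
      | none =>
        obtain ⟨c, hc⟩ := hnone hiB
        refine ⟨_, hc, by simpa [D_none] using hy, fun j _ hji _ => ?_⟩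
        cases j with
        | none => exact absurd rfl hji
        | some l' => simp [D_some]
      | some l' =>
        obtain ⟨f', h1, h2, h3⟩ := exists_minpoly hB (hmax _ hiB)
        refine ⟨f', h1, h3, fun j hj hji hr => ?_⟩
        have hjδ : j ≠ δ := by rintro rfl; simp [hiδ] at hr
        have hj' := (Finset.mem_insert.1 hj).resolve_left hjδ
        cases j with
        | none => simp [hjδ, hiδ] at hr
        | some l'' =>
          rw [D_some, h2.pderiv_eq_zero]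
          · exact zero_mem _
          · have : some l'' ∉ B := by simpa using (Finset.mem_erase.1 hj').2
            simp only [Finset.mem_insert, not_or]
            exact ⟨hji, this⟩

theorem struct (h0 : 𝔭 ≠ ⊥) (H1 : ∀ l, 1 < s ^ (m + 1) * n l)
    (H2 : ∀ l' l, l' < l → (n l' : ℝ) < s ^ (m + 1) * n l) (H3 : 1 < s * g) :
    (∃ c, X none - C c ∈ 𝔭) ∧ ∃ l c, X (some l) - C c ∈ 𝔭 := by
  have hA : ∃ c, X none - C c ∈ 𝔭 := by
    refine univariate hp fun hI => ?_
    have h1 : ¬ Indep 𝔭 (Seg m true m) := by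
      intro h
      refine h0 (eq_bot_iff.2 fun f hf => h f hf fun β _ i _ => ?_)
      cases i <;> simp
    obtain ⟨l, h2, h3⟩ := find_seg (hI.anti fun i hi => by cases i <;> simp at hi ⊢) h1
    obtain ⟨B, hIB, hB, hmax⟩ := h2.exists_max
    have hl : some l ∉ B := fun h => h3 (hB.anti (Finset.insert_subset h hIB))
    obtain ⟨e, he, hex, hm⟩ := exists_level h2 h3
    refine log_transc (x := some l) (y := none) (by simp) he hex hm fun f hf hf0 => ?_
    have h4 : ∀ δ ∈ Seg m true l, D δ f ∈ 𝔭 := by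
      intro δ hδ
      by_contra h
      have := swap hn hg hp hy hN hs hs1 hmin hB hmax (fun h => absurd (hIB (by simp)) h) hl
        (hIB hδ) hf.1 (hf.2.1.mono (Finset.insert_subset_insert _ hIB)) h
      cases δ with
      | none => exact absurd (H1 l) (by simpa using this)
      | some l' => exact absurd (H2 l' l (by simpa using hδ)) (by simpa using this)
    have h5 := h4 none (by simp)
    rw [D_none, ← Finset.add_sum_erase _ _ (Finset.mem_univ l), ← add_assoc] at h5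
    refine (Ideal.add_mem_iff_left _ (Ideal.sum_mem _ fun l' hl' => ?_)).1 h5
    by_cases h6 : some l' ∈ Seg m true l
    · exact h4 _ h6
    · rw [hf.2.1.pderiv_eq_zero]
      · exact zero_mem _
      · simp only [Finset.mem_insert, not_or]
        exact ⟨by simpa using Finset.ne_of_mem_erase hl', h6⟩
  refine ⟨hA, ?_⟩
  obtain ⟨c, hc⟩ := hA
  by_cases h1 : Indep 𝔭 (Seg m false m)
  · exfalso
    have h2 : (Seg m false m)ᶜ = {none} := by
      ext i; cases i <;> simp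
    have := star hn hg hp (A := {none}) (B := Seg m false m)
      (fun f hf h => h1 f hf (supp_iff.1 h)) (fun _ => 0) ?_ hN hs hmin (by rw [h2])
    · rw [h2] at this
      simp at this
      linarith
    · intro i hi
      rw [Finset.mem_singleton.1 hi]
      exact ⟨_, hc, by simpa [D_none] using hy, fun j hj hji =>
        absurd (Finset.mem_singleton.1 hj) hji⟩
  · obtain ⟨l, h2, h3⟩ := find_seg ((indep_empty hp).anti fun i hi => by
      cases i <;> simp at hi) h1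
    obtain ⟨B, hIB, hB, hmax⟩ := h2.exists_max
    have hl : some l ∉ B := fun h => h3 (hB.anti (Finset.insert_subset h hIB))
    obtain ⟨e, he, hex, hm⟩ := exists_level h2 h3
    refine ⟨l, univariate hp (dep_single hex fun f hf hf0 δ hδ => ?_)⟩
    cases δ with
    | none => simp at hδ
    | some l' =>
      by_contra h
      have := swap hn hg hp hy hN hs hs1 hmin hB hmax (fun _ => ⟨c, hc⟩) hl
        (hIB hδ) hf.1 (hf.2.1.mono (Finset.insert_subset_insert _ hIB)) h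
      exact absurd (H2 l' l (by simpa using hδ)) (by simpa using this)

end main

end Crest.Agent.R11
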