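import Crest.Agent.R11.Jet

set_option autoImplicit false

/-! The degree filtration, and the multiplicity inequality along an isolated component. -/

namespace Crest.Agent.R11

open Finsupp hiding some
open MvPolynomial

section W
variable {ι : Type} [Fintype ι] [DecidableEq ι]

/-- all monomials have weight `< x` -/
def Deg (w : ι → ℕ) (x : ℝ) (f : MvPolynomial ι ℂ) : Prop :=
  ∀ β, coeff β f ≠ 0 → ((weight w β : ℕ) : ℝ) < x

lemma Deg.add {w : ι → ℕ} {x : ℝ} {f g : MvPolynomial ι ℂ} (hf : Deg w x f) (hg : Deg w x g) :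
    Deg w x (f + g) := by
  intro β hβ
  by_cases h : coeff β f = 0
  · exact hg β (by simpa [h] using hβ)
  · exact hf β h

lemma Deg.sum {w : ι → ℕ} {x : ℝ} {α : Type} (s : Finset α) {f : α → MvPolynomial ι ℂ}
    (hf : ∀ a ∈ s, Deg w x (f a)) : Deg w x (∑ a ∈ s, f a) := by
  intro β hβ
  rw [coeff_sum] at hβ
  obtain ⟨a, ha, h⟩ := Finset.exists_ne_zero_of_sum_ne_zero hβ
  exact hf a ha β h

lemma Deg.pderiv {w : ι → ℕ} {x : ℝ} {f : MvPolynomial ι ℂ} (hf : Deg w x f) (i : ι) :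
    Deg w x (pderiv i f) := by
  intro β hβ
  rw [coeff_pderiv] at hβ
  have := hf _ (left_ne_zero_of_mul hβ)
  rw [map_add] at this
  push_cast at this
  linarith [Nat.cast_nonneg (α := ℝ) (weight w (single i 1))]

lemma coeff_X_mul_pderiv (i : ι) (f : MvPolynomial ι ℂ) (β : ι →₀ ℕ) :
    coeff β (X i * pderiv i f) = coeff β f * β i := by
  rw [coeff_X_mul']
  split_ifs with h
  · have h1 : β i ≠ 0 := Finsupp.mem_support_iff.1 h
    have h2 : β - single i 1 + single i 1 = β :=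
      tsub_add_cancel_of_le (by rw [single_le_iff]; omega)
    rw [coeff_pderiv, h2]
    congr 1
    have : (β - single i 1 : ι →₀ ℕ) i + 1 = β i := by simp; omega
    exact_mod_cast this
  · simp [Finsupp.notMem_support_iff.1 h]

lemma Deg.euler {w : ι → ℕ} {x : ℝ} {f : MvPolynomial ι ℂ} (hf : Deg w x f) (i : ι) :
    Deg w x (X i * MvPolynomial.pderiv i f) := by
  intro β hβ
  rw [coeff_X_mul_pderiv] at hβ
  exact hf _ (left_ne_zero_of_mul hβ)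

lemma exists_Deg (w : ι → ℕ) (f : MvPolynomial ι ℂ) : ∃ x, Deg w x f :=
  ⟨(f.support.sup (weight w) + 1 : ℕ), fun β hβ => by
    exact_mod_cast Nat.lt_succ_of_le (Finset.le_sup (MvPolynomial.mem_support_iff.2 hβ))⟩

/-- degree filtration relative to the variables in `B` -/
noncomputable def W (w : ι → ℕ) (B : Finset ι) (x : ℝ) :
    Submodule (supported ℂ (B : Set ι)) (MvPolynomial ι ℂ) :=
  Submodule.span _ ((fun β => monomial β (1 : ℂ)) '' box w Bᶜ x)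

lemma W_mul (w : ι → ℕ) (B : Finset ι) (a b : ℝ) (f g : MvPolynomial ι ℂ) (hf : f ∈ W w B a)
    (hg : g ∈ W w B b) : f * g ∈ W w B (a + b) := by
  have := Submodule.mul_mem_mul hf hg
  rw [W, W, Submodule.span_mul_span] at this
  refine Submodule.span_mono ?_ this
  rintro _ ⟨_, ⟨β, hβ, rfl⟩, _, ⟨γ, hγ, rfl⟩, rfl⟩
  refine ⟨β + γ, ⟨Finsupp.support_add.trans (Finset.union_subset hβ.1 hγ.1), ?_⟩, ?_⟩
  · rw [map_add]; push_cast; linarith [hβ.2, hγ.2]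
  · simp [monomial_mul]

lemma monomial_mem_supported {B : Set ι} {β : ι →₀ ℕ} (h : ∀ i, β i ≠ 0 → i ∈ B) (c : ℂ) :
    monomial β c ∈ supported ℂ B := by
  rw [MvPolynomial.mem_supported]
  intro i hi
  by_cases hc : c = 0
  · simp [hc] at hi
  · rw [vars_monomial hc] at hi
    exact h i (Finsupp.mem_support_iff.1 hi)

lemma Deg.mem_W {w : ι → ℕ} {x : ℝ} {f : MvPolynomial ι ℂ} (hf : Deg w x f) (B : Finset ι) :
    f ∈ W w B x := by
  rw [f.as_sum]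
  refine Submodule.sum_mem _ fun β hβ => ?_
  have h1 := hf β (MvPolynomial.mem_support_iff.1 hβ)
  have h2 : β.filter (· ∈ B) + β.filter (¬ · ∈ B) = β := filter_add_filter_not β _
  have h3 : monomial (β.filter (· ∈ B)) (coeff β f) ∈ supported ℂ (B : Set ι) :=
    monomial_mem_supported (fun i hi => by
      by_contra h
      exact hi (filter_apply_neg _ _ h)) _
  have h4 : monomial β (coeff β f) =
      (⟨_, h3⟩ : supported ℂ (B : Set ι)) • monomial (β.filter (¬ · ∈ B)) (1 : ℂ) := by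
    rw [Subalgebra.smul_def, smul_eq_mul, monomial_mul, h2, mul_one]
  rw [h4]
  refine Submodule.smul_mem _ _ (Submodule.subset_span ⟨_, ?_, rfl⟩)
  refine ⟨fun i hi => by simp at hi ⊢; exact hi.2, lt_of_le_of_lt ?_ h1⟩
  conv_rhs => rw [← h2, map_add]
  exact_mod_cast Nat.le_add_left _ _

lemma W_ex (w : ι → ℕ) (B : Finset ι) (f : MvPolynomial ι ℂ) : ∃ e, f ∈ W w B e :=
  let ⟨x, hx⟩ := exists_Deg w f; ⟨x, hx.mem_W B⟩

lemma Hilb_le_cnt {w : ι → ℕ} (hw : ∀ i, w i ≠ 0) (B : Finset ι) (𝔞 : Ideal (MvPolynomial ι ℂ))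
    (x : ℝ) : Hilb (W w B) 𝔞 x ≤ cnt w Bᶜ x := by
  refine (rank_map_le _ _).trans ((rank_span_le _).trans (Cardinal.mk_image_le.trans ?_))
  rw [cnt, Set.cast_ncard (box_finite hw _ _)]

lemma one_le_Hilb (w : ι → ℕ) {B : Finset ι} {𝔭 : Ideal (MvPolynomial ι ℂ)}
    (hB : ∀ f ∈ 𝔭, f ∈ supported ℂ (B : Set ι) → f = 0) {x : ℝ} (hx : 0 < x) :
    1 ≤ Hilb (W w B) 𝔭 x := by
  rw [Cardinal.one_le_iff_ne_zero]
  intro h
  have h1 : (1 : MvPolynomial ι ℂ) ∈ W w B x :=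
    Submodule.subset_span ⟨0, ⟨by simp, by simpa using hx⟩, rfl⟩
  obtain ⟨a, ha, h2⟩ := rank_eq_zero_iff.1 h ⟨_, 1, h1, rfl⟩
  have h3 : Ideal.Quotient.mk 𝔭 (a • (1 : MvPolynomial ι ℂ)) = 0 := congrArg Subtype.val h2
  rw [Ideal.Quotient.eq_zero_iff_mem, Subalgebra.smul_def, smul_eq_mul, mul_one] at h3
  exact ha (Subtype.ext (hB _ h3 a.2))

lemma degree_le_weight {w : ι → ℕ} (hw : ∀ i, w i ≠ 0) (β : ι →₀ ℕ) : degree β ≤ weight w β := by
  rw [degree_eq_sum, weight_eq_sum]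
  exact Finset.sum_le_sum fun i _ => Nat.le_mul_of_pos_right _ (Nat.pos_of_ne_zero (hw i))

lemma colen_le_one {κ : Type} [Field κ] {𝔟 : Ideal (MvPolynomial ι κ)} (h : ∀ i, X i ∈ 𝔟) :
    colen κ 𝔟 ≤ 1 := by
  refine rank_le_one_iff.2 ⟨1, fun y => ?_⟩
  obtain ⟨g, rfl⟩ := Ideal.Quotient.mk_surjective y
  refine ⟨coeff 0 g, ?_⟩
  have h1 : idealOfVars ι κ ≤ 𝔟 := Ideal.span_le.2 (by rintro _ ⟨i, rfl⟩; exact h i)
  have h2 : C (coeff 0 g) - g ∈ idealOfVars ι κ ^ 1 := by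
    rw [mem_pow_idealOfVars_iff']
    intro β hβ
    have : β = 0 := (degree_eq_zero_iff β).1 (by omega)
    simp [this]
  rw [pow_one] at h2
  rw [← map_one (Ideal.Quotient.mk 𝔟), ← Ideal.Quotient.mkₐ_eq_mk κ, ← map_smul,
    Ideal.Quotient.mkₐ_eq_mk, Ideal.Quotient.eq, smul_eq_C_mul, mul_one]
  exact h1 h2

lemma sub_linear_mem {κ : Type} [Field κ] {g : MvPolynomial ι κ} (hg : coeff 0 g = 0) :
    g - ∑ j, C (coeff (single j 1) g) * X j ∈ idealOfVars ι κ ^ 2 := by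
  rw [mem_pow_idealOfVars_iff']
  intro β hβ
  rw [coeff_sub, coeff_sum, sub_eq_zero]
  simp only [coeff_C_mul, coeff_X]
  rcases Nat.lt_or_ge (degree β) 1 with h | h
  · have : β = 0 := (degree_eq_zero_iff β).1 (by omega)
    subst this
    simp [hg]
  · have h1 : β ∈ Set.range (fun i : ι => single i 1) := by
      rw [range_single_one]
      simp only [Set.mem_setOf_eq]; omega
    obtain ⟨i, rfl⟩ := h1
    rw [Finset.sum_eq_single i]
    · simp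
    · intro j _ hj
      rw [if_neg, mul_zero]
      exact fun h => hj (single_left_injective one_ne_zero h)
    · simp

end W

variable {σ : Type} [Fintype σ] [DecidableEq σ]

lemma Deg.D {w : Option σ → ℕ} {x : ℝ} {f : R σ} (hf : Deg w x f) (i : Option σ) :
    Deg w x (D i f) := by
  cases i with
  | some l => exact hf.pderiv _
  | none => rw [D_none]; exact (hf.euler _).add (Deg.sum _ fun l _ => hf.pderiv _)

lemma Deg.DL {w : Option σ → ℕ} {x : ℝ} {f : R σ} (hf : Deg w x f) (L : List (Option σ)) :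
    Deg w x (DL L f) := by
  induction L with
  | nil => exact hf
  | cons i L ih => exact ih.D i

lemma ell_le_one {κ : Type} [Field κ] [CharZero κ] [Algebra ℂ κ] {n : σ → ℕ} (hn : ∀ l, n l ≠ 0)
    {ξ : Option σ → κ} {A : Finset (Option σ)} {𝔭 : Ideal (R σ)} (r : Option σ → ℕ)
    (hA : ∀ i ∈ A, ∃ f ∈ 𝔭, aeval ξ f = 0 ∧ aeval ξ (D i f) ≠ 0 ∧
      ∀ j ∈ A, j ≠ i → r i ≤ r j → aeval ξ (D j f) = 0) (x : ℝ) : ell n ξ A 𝔭 x ≤ 1 := by
  set 𝔟 := 𝔭.map (phi n ξ) ⊔ J κ (wt 1 n) A x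
  set 𝔫 := idealOfVars (Option σ) κ
  have h0 : ∀ i, i ∉ A → X i ∈ 𝔟 := fun i hi => Ideal.mem_sup_right (X_mem_J_of_notMem _ hi _)
  have h1 : ∀ k, ∀ i ∈ A, r i = k → X i ∈ 𝔟 ⊔ 𝔫 ^ 2 := by
    intro k
    induction k using Nat.strong_induction_on with
    | _ k ih =>
    intro i hi hk
    obtain ⟨f, hf, h2, h3, h4⟩ := hA i hi
    have h5 := sub_linear_mem (g := phi n ξ f) (by rw [coeff_zero_phi, h2])
    simp only [coeff_single_phi hn] at h5
    rw [← Finset.add_sum_erase _ _ (Finset.mem_univ i)] at h5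
    have h6 : ∑ j ∈ Finset.univ.erase i, C (aeval ξ (D j f)) * X j ∈ 𝔟 ⊔ 𝔫 ^ 2 := by
      refine Ideal.sum_mem _ fun j hj => ?_
      by_cases hjA : j ∈ A
      · rcases Nat.lt_or_ge (r j) (r i) with h | h
        · exact Ideal.mul_mem_left _ _ (ih _ (hk ▸ h) j hjA rfl)
        · simp [h4 j hjA (Finset.ne_of_mem_erase hj) h]
      · exact Ideal.mul_mem_left _ _ (Ideal.mem_sup_left (h0 j hjA))
    have h7 : phi n ξ f ∈ 𝔟 ⊔ 𝔫 ^ 2 :=
      Ideal.mem_sup_left (Ideal.mem_sup_left (Ideal.mem_map_of_mem _ hf))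
    have h8 := Ideal.mul_mem_left _ (C (aeval ξ (D i f))⁻¹)
      (Ideal.sub_mem _ (Ideal.sub_mem _ h7 (Ideal.mem_sup_right h5)) h6)
    rwa [sub_sub_cancel, add_sub_cancel_right, ← mul_assoc, ← map_mul, inv_mul_cancel₀ h3,
      map_one, one_mul] at h8
  have h2 : 𝔫 ≤ 𝔟 ⊔ 𝔫 ^ 2 := by
    refine Ideal.span_le.2 ?_
    rintro _ ⟨i, rfl⟩
    by_cases hi : i ∈ A
    · exact h1 _ i hi rfl
    · exact Ideal.mem_sup_left (h0 i hi)
  have h3 : ∀ k, 𝔫 ≤ 𝔟 ⊔ 𝔫 ^ (k + 1) := by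
    intro k
    induction k with
    | zero => simp
    | succ k ih =>
      refine ih.trans (sup_le le_sup_left ?_)
      calc 𝔫 ^ (k + 1) = 𝔫 ^ k * 𝔫 := pow_succ _ _
        _ ≤ 𝔫 ^ k * (𝔟 ⊔ 𝔫 ^ 2) := Ideal.mul_mono_right h2
        _ = 𝔫 ^ k * 𝔟 ⊔ 𝔫 ^ (k + 1 + 1) := by rw [Ideal.mul_sup, ← pow_add]
        _ ≤ _ := sup_le_sup_right Ideal.mul_le_right _
  obtain ⟨k, hk⟩ := exists_nat_ge x
  have h4 : 𝔫 ^ (k + 1) ≤ 𝔟 := by
    refine le_sup_of_le_right fun g hg β hβ => (mem_pow_idealOfVars_iff' _ _).1 hg β ?_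
    have h5 := degree_le_weight (wt_ne_zero one_ne_zero hn) β
    have h6 : weight (wt 1 n) β < k := by exact_mod_cast hβ.2.trans_le hk
    omega
  exact colen_le_one fun i => (h3 k).trans (sup_le le_rfl h4) (Ideal.subset_span ⟨i, rfl⟩)

theorem star {n : σ → ℕ} (hn : ∀ l, n l ≠ 0) {g : ℕ} (hg : g ≠ 0) {𝔭 : Ideal (R σ)}
    (hp : 𝔭.IsPrime) {A B : Finset (Option σ)}
    (hB : ∀ f ∈ 𝔭, f ∈ supported ℂ (B : Set (Option σ)) → f = 0) (r : Option σ → ℕ)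
    (hA : ∀ i ∈ A, ∃ f ∈ 𝔭, D i f ∉ 𝔭 ∧ ∀ j ∈ A, j ≠ i → r i ≤ r j → D j f ∈ 𝔭)
    {N s : ℝ} (hN : 0 < N) (hs : 0 < s)
    (hmin : ∀ 𝔮 : Ideal (R σ), 𝔮.IsPrime → 𝔮 < 𝔭 → ∃ Q, Q ∉ 𝔮 ∧ Deg (wt g n) N Q ∧
      ∀ L, ((weight (wt 1 n) (cntL L) : ℕ) : ℝ) < s * N → DL L Q ∈ 𝔭)
    (hc : A.card = Bᶜ.card) :
    s ^ A.card * ∏ i ∈ Bᶜ, (wt g n i : ℝ) ≤ ∏ i ∈ A, (wt 1 n i : ℝ) := by
  let κ := FractionRing (R σ ⧸ 𝔭)
  haveI : CharZero κ := charZero_of_injective_algebraMap (algebraMap ℂ κ).injective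
  let ev : R σ →ₐ[ℂ] κ := (IsScalarTower.toAlgHom ℂ (R σ ⧸ 𝔭) κ).comp (Ideal.Quotient.mkₐ ℂ 𝔭)
  let ξ : Option σ → κ := fun i => ev (X i)
  have hev : ∀ f, aeval ξ f = 0 ↔ f ∈ 𝔭 := by
    intro f
    have : aeval ξ = ev := (aeval_unique ev).symm
    rw [this, ← Ideal.Quotient.eq_zero_iff_mem]
    exact map_eq_zero_iff _ (IsFractionRing.injective (R σ ⧸ 𝔭) κ)
  obtain ⟨c, hc2⟩ := bez (W (wt g n) B) (W_mul _ _) (W_ex _ _)
    (fun 𝔞 x => ell n ξ A 𝔞 (s * x))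
    (fun 𝔞 x y h => ell_mono n ξ A 𝔞 (mul_le_mul_of_nonneg_left h hs.le))
    (fun 𝔞 x hx => ell_nonpos n ξ A 𝔞 (mul_nonpos_of_nonneg_of_nonpos hs.le hx))
    (fun x => ell_top n ξ A _) (fun 𝔞 f x => ell_sub' n ξ A 𝔞 f _) (by
      intro 𝔮 hq
      by_cases h1 : 𝔮 ≤ 𝔭
      · rcases h1.eq_or_lt with rfl | h1
        · left
          intro x
          rcases le_or_gt x 0 with hx | hx
          · simp [ell_nonpos n ξ A 𝔮 (mul_nonpos_of_nonneg_of_nonpos hs.le hx)]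
          · refine (ell_le_one hn r (fun i hi => ?_) _).trans (one_le_Hilb _ hB hx)
            obtain ⟨f, h1, h2, h3⟩ := hA i hi
            exact ⟨f, h1, (hev f).2 h1, fun h => h2 ((hev _).1 h),
              fun j a b c => (hev _).2 (h3 j a b c)⟩
        · right
          obtain ⟨Q, h2, h3, h4⟩ := hmin 𝔮 hq h1
          refine ⟨Q, N, hN, h2, h3.mem_W B, fun x => ?_⟩
          have := ell_prime A hq h2 (mem_J_of_jets fun L hL => (hev _).2 (h4 L hL)) (s * x)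
          rwa [← mul_sub] at this
      · left
        intro x
        obtain ⟨f, h2, h3⟩ := SetLike.not_le_iff_exists.1 h1
        simp [ell_eq_zero hn A h2 (fun h => h3 ((hev f).1 h))]) ⊥
  have := vol_le (wt_ne_zero one_ne_zero hn) (wt_ne_zero hg hn) hc (K := 1) (c := c) hs fun x => by
    have := (ell_bot hn ξ A _).trans ((hc2 x).trans (Hilb_le_cnt (wt_ne_zero hg hn) _ _ _))
    rw [one_mul]
    exact_mod_cast this
  simpa using this

end Crest.Agent.R11
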