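import Crest.Agent.R11.Prod

set_option autoImplicit false

/-! The zero estimate. -/

namespace Crest.Agent.R11

open Finsupp hiding some
open MvPolynomial

section gen
variable {ι : Type} [Fintype ι] [DecidableEq ι]

def DegLe (w : ι → ℕ) (k : ℕ) (f : MvPolynomial ι ℂ) : Prop := ∀ β, coeff β f ≠ 0 → weight w β ≤ k

lemma DegLe.mul {w : ι → ℕ} {k k' : ℕ} {f g : MvPolynomial ι ℂ} (hf : DegLe w k f)
    (hg : DegLe w k' g) : DegLe w (k + k') (f * g) := by
  intro β hβ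
  rw [coeff_mul] at hβ
  obtain ⟨p, hp, h⟩ := Finset.exists_ne_zero_of_sum_ne_zero hβ
  rw [Finset.HasAntidiagonal.mem_antidiagonal] at hp
  rw [← hp, map_add]
  exact add_le_add (hf _ (left_ne_zero_of_mul h)) (hg _ (right_ne_zero_of_mul h))

lemma DegLe.C (w : ι → ℕ) (c : ℂ) : DegLe w 0 (C c) := by
  intro β hβ
  rw [coeff_C] at hβ
  split_ifs at hβ with h
  · simp [← h]
  · simp at hβ

lemma DegLe.pow {w : ι → ℕ} {k : ℕ} {f : MvPolynomial ι ℂ} (hf : DegLe w k f) (r : ℕ) :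
    DegLe w (r * k) (f ^ r) := by
  induction r with
  | zero => simpa using DegLe.C w 1
  | succ r ih => rw [pow_succ, add_mul, one_mul]; exact ih.mul hf

lemma DegLe.prod {w : ι → ℕ} {α : Type} (s : Finset α) {k : α → ℕ} {f : α → MvPolynomial ι ℂ}
    (hf : ∀ a, DegLe w (k a) (f a)) : DegLe w (∑ a ∈ s, k a) (∏ a ∈ s, f a) := by
  classical
  induction s using Finset.induction_on with
  | empty => simpa using DegLe.C w 1
  | insert a s ha ih => rw [Finset.sum_insert ha, Finset.prod_insert ha]; exact (hf a).mul ih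

lemma DegLe.X_sub_C (w : ι → ℕ) (i : ι) (c : ℂ) : DegLe w (w i) (X i - MvPolynomial.C c) := by
  intro β hβ
  rw [coeff_sub, coeff_X, coeff_C] at hβ
  by_cases h : single i 1 = β
  · simp [← h, weight_single]
  · by_cases h2 : 0 = β
    · simp [← h2]
    · simp [h, h2] at hβ

noncomputable def W0 (w : ι → ℕ) (x : ℝ) : Submodule ℂ (MvPolynomial ι ℂ) :=
  Submodule.span _ ((fun β => monomial β (1 : ℂ)) '' box w Finset.univ x)

lemma W0_mul (w : ι → ℕ) (a b : ℝ) (f g : MvPolynomial ι ℂ) (hf : f ∈ W0 w a)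
    (hg : g ∈ W0 w b) : f * g ∈ W0 w (a + b) := by
  have := Submodule.mul_mem_mul hf hg
  rw [W0, W0, Submodule.span_mul_span] at this
  refine Submodule.span_mono ?_ this
  rintro _ ⟨_, ⟨β, hβ, rfl⟩, _, ⟨γ, hγ, rfl⟩, rfl⟩
  refine ⟨β + γ, ⟨Finset.subset_univ _, ?_⟩, ?_⟩
  · rw [map_add]; push_cast; linarith [hβ.2, hγ.2]
  · simp [monomial_mul]

lemma Deg.mem_W0 {w : ι → ℕ} {x : ℝ} {f : MvPolynomial ι ℂ} (hf : Deg w x f) : f ∈ W0 w x := by
  rw [f.as_sum]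
  refine Submodule.sum_mem _ fun β hβ => ?_
  have h4 : monomial β (coeff β f) = coeff β f • monomial β (1 : ℂ) := by
    rw [smul_monomial, smul_eq_mul, mul_one]
  rw [h4]
  exact Submodule.smul_mem _ _ (Submodule.subset_span
    ⟨_, ⟨Finset.subset_univ _, hf β (MvPolynomial.mem_support_iff.1 hβ)⟩, rfl⟩)

lemma W0_ex (w : ι → ℕ) (f : MvPolynomial ι ℂ) : ∃ e, f ∈ W0 w e :=
  let ⟨x, hx⟩ := exists_Deg w f; ⟨x, hx.mem_W0⟩

lemma Hilb0_le_cnt {w : ι → ℕ} (hw : ∀ i, w i ≠ 0) (𝔞 : Ideal (MvPolynomial ι ℂ))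
    (x : ℝ) : Hilb (W0 w) 𝔞 x ≤ cnt w Finset.univ x := by
  refine (rank_map_le _ _).trans ((rank_span_le _).trans (Cardinal.mk_image_le.trans ?_))
  rw [cnt, Set.cast_ncard (box_finite hw _ _)]

lemma chain {I : ℕ → Ideal (MvPolynomial ι ℂ)} (hI : Monotone I) (h0 : I 0 ≠ ⊥)
    {𝔮 : Ideal (MvPolynomial ι ℂ)} (hq : 𝔮.IsPrime) (h : I (Fintype.card ι) ≤ 𝔮) :
    ∃ i < Fintype.card ι, ∃ 𝔭 ∈ (I i).minimalPrimes, 𝔭 ≤ 𝔮 ∧ I (i + 1) ≤ 𝔭 := by
  by_contra hcon
  push Not at hcon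
  have h1 : ∀ i ≤ Fintype.card ι, ∀ 𝔭 : Ideal (MvPolynomial ι ℂ), 𝔭.IsPrime → 𝔭 ≤ 𝔮 → I i ≤ 𝔭 →
      ((i + 1 : ℕ) : ℕ∞) ≤ 𝔭.height := by
    intro i
    induction i with
    | zero =>
      intro _ 𝔭 hp _ h2
      have : (⊥ : Ideal (MvPolynomial ι ℂ)) < 𝔭 :=
        bot_lt_iff_ne_bot.2 fun h => h0 (eq_bot_iff.2 (h ▸ h2))
      simpa using Ideal.height_add_one_le_of_lt_of_isPrime this
    | succ i ih =>
      intro hi 𝔭 hp h2 h3
      obtain ⟨𝔭', h4, h5⟩ := Ideal.exists_minimalPrimes_le ((hI (Nat.le_succ i)).trans h3)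
      haveI := h4.1.1
      have h6 : 𝔭' < 𝔭 := lt_of_le_of_ne h5 fun h => hcon i hi 𝔭' h4 (h5.trans h2) (h ▸ h3)
      have h7 := ih (by omega) 𝔭' h4.1.1 (h5.trans h2) h4.1.2
      refine le_trans ?_ (Ideal.height_add_one_le_of_lt_of_isPrime h6)
      push_cast at h7 ⊢
      gcongr
  have h2 := h1 _ le_rfl 𝔮 hq le_rfl h
  have h3 := Ideal.height_le_ringKrullDim_of_isPrime (I := 𝔮)
  rw [MvPolynomial.ringKrullDim_of_isNoetherianRing, ringKrullDim_eq_zero_of_field, zero_add,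
    Nat.card_eq_fintype_card] at h3
  have h4 : 𝔮.height ≤ (Fintype.card ι : ℕ∞) := by exact_mod_cast h3
  have h5 : Fintype.card ι + 1 ≤ Fintype.card ι := by exact_mod_cast h2.trans h4
  omega

end gen

section
variable {σ : Type} [Fintype σ] [DecidableEq σ]

lemma ell_le_Hilb (n : σ → ℕ) (g : ℕ) {ξ : Option σ → ℂ} (hξ : ξ none = 1) {𝔮 : Ideal (R σ)}
    (hq : X none - C 1 ∈ 𝔮) {x x' : ℝ} (hx : x ≤ x') :
    ell n ξ Finset.univ 𝔮 x ≤ Hilb (W0 (wt g n)) 𝔮 x' := by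
  set 𝔟 := 𝔮.map (phi n ξ) ⊔ J ℂ (wt 1 n) Finset.univ x
  have hle : 𝔮 ≤ 𝔟.comap (phi n ξ) := Ideal.map_le_iff_le_comap.1 le_sup_left
  let ψ := (Ideal.quotientMapₐ 𝔟 (phi n ξ) hle).toLinearMap
  refine LinearMap.rank_le_of_surjective (ψ.domRestrict _) ?_
  rw [← LinearMap.range_eq_top, eq_top_iff]
  intro y _
  obtain ⟨G, rfl⟩ := Ideal.Quotient.mk_surjective y
  rw [G.as_sum, map_sum]
  refine Submodule.sum_mem _ fun β _ => ?_
  generalize coeff β G = c
  have hX : X none ∈ 𝔟 := by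
    have := Ideal.mem_map_of_mem (phi n ξ) hq
    rw [map_sub, phi_X_none, phi_C, hξ] at this
    exact Ideal.mem_sup_left (by simpa using this)
  have hmon : monomial β c = C c * (X none ^ β none * ∏ l, X (some l) ^ β (some l)) := by
    rw [monomial_eq, Finsupp.prod_fintype _ _ (by simp), Fintype.prod_option]
  by_cases h1 : β ∈ box (wt 1 n) Finset.univ x
  swap
  · rw [Ideal.Quotient.eq_zero_iff_mem.2 (Ideal.mem_sup_right (monomial_mem_J c h1))]
    exact zero_mem _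
  by_cases h2 : β none = 0
  swap
  · rw [Ideal.Quotient.eq_zero_iff_mem.2]
    · exact zero_mem _
    · rw [hmon]
      exact Ideal.mul_mem_left _ _ (Ideal.mul_mem_right _ _ (Ideal.pow_mem_of_mem _ hX _
        (Nat.pos_of_ne_zero h2)))
  let f : R σ := C c * ∏ l, (X (some l) - C (ξ (some l))) ^ β (some l)
  have hf : f ∈ W0 (wt g n) x' := by
    refine Deg.mem_W0 fun γ hγ => ?_
    have h3 := ((DegLe.C (wt g n) c).mul (DegLe.prod Finset.univ fun l =>
      (DegLe.X_sub_C (wt g n) (some l) (ξ (some l))).pow (β (some l)))) γ hγ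
    have h4 := h1.2
    rw [weight_eq_sum, Fintype.sum_option, h2] at h4
    simp only [wt_some, zero_add, zero_mul, smul_eq_mul] at h3 h4
    have h5 : ((weight (wt g n) γ : ℕ) : ℝ) ≤ (∑ l, β (some l) * n l : ℕ) := by exact_mod_cast h3
    linarith
  refine ⟨⟨_, f, hf, rfl⟩, ?_⟩
  change Ideal.Quotient.mk 𝔟 (phi n ξ f) = _
  rw [hmon, h2, pow_zero, one_mul]
  simp only [f, map_mul, map_prod, map_pow, map_sub, phi_C, phi_X_some, map_add]
  congr 1
  refine Finset.prod_congr rfl fun l _ => ?_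
  rw [Ideal.Quotient.eq_zero_iff_mem.2 ((Ideal.span_singleton_le_iff_mem _).2 hX (Lg_mem_span _))]
  simp [𝔟]

end

variable {m : ℕ}

/-- the points `(k ω, 1)` -/
noncomputable def pt (ω : Fin m → ℂ) (k : ℕ) : Option (Fin m) → ℂ :=
  fun o => o.elim 1 (fun l => k * ω l)

theorem zero_est {n : Fin m → ℕ} (hn : ∀ l, n l ≠ 0) {g : ℕ} (hg : g ≠ 0) {ω : Fin m → ℂ}
    (hω : ∀ l, ω l ≠ 0) (Ks : Finset ℕ) {P : R (Fin m)} (hP : P ≠ 0) {N τ s : ℝ} (hN : 0 < N)
    (hτ : 0 < τ) (hτ1 : τ ≤ 1) (H1 : ∀ l, 1 < τ ^ (m + 1) * n l)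
    (H2 : ∀ l' l, l' < l → (n l' : ℝ) < τ ^ (m + 1) * n l) (H3 : 1 < τ * g)
    (hdeg : Deg (wt g n) N P) (hs : 0 < s) (hs1 : s ≤ 1)
    (hvan : ∀ k ∈ Ks, phi n (pt ω k) P ∈ J ℂ (wt 1 n) Finset.univ ((s + (m + 1) * τ) * N)) :
    Ks.card * s ^ (m + 1) * g ≤ 1 := by
  let I : ℕ → Ideal (R (Fin m)) := fun i => Ideal.span
    ((fun L => DL L P) '' {L | ((weight (wt 1 n) (cntL L) : ℕ) : ℝ) ≤ i * τ * N})
  have hI : Monotone I := fun i j h => Ideal.span_mono (Set.image_mono fun L hL =>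
    le_trans hL (show (i : ℝ) * τ * N ≤ j * τ * N by gcongr))
  have h0 : I 0 ≠ ⊥ := fun h => hP (by
    have : P ∈ I 0 := Ideal.subset_span ⟨[], by simp, rfl⟩
    simpa [h] using this)
  have hgen : ∀ i (𝔮 : Ideal (R (Fin m))), ¬ I i ≤ 𝔮 → ∃ L,
      ((weight (wt 1 n) (cntL L) : ℕ) : ℝ) ≤ i * τ * N ∧ DL L P ∉ 𝔮 := by
    intro i 𝔮 h
    by_contra h2
    push Not at h2
    exact h (Ideal.span_le.2 (by rintro _ ⟨L, hL, rfl⟩; exact h2 L hL))
  have hstr : ∀ 𝔮 : Ideal (R (Fin m)), 𝔮.IsPrime → I (m + 1) ≤ 𝔮 → X none ∉ 𝔮 →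
      (∃ c, X none - C c ∈ 𝔮) ∧ ∃ l c, X (some l) - C c ∈ 𝔮 := by
    intro 𝔮 hq h1 h2
    obtain ⟨i, -, 𝔭, h3, h4, h5⟩ := chain hI h0 hq (by simpa using h1)
    have := struct hn hg h3.1.1 (fun h => h2 (h4 h)) hN hτ hτ1 ?_
      (fun h => h0 (eq_bot_iff.2 (((hI (Nat.zero_le i)).trans h3.1.2).trans h.le))) H1 H2 H3
    · obtain ⟨⟨c, hc⟩, l, c', hc'⟩ := this
      exact ⟨⟨c, h4 hc⟩, l, c', h4 hc'⟩
    · intro 𝔮' hq' hlt
      obtain ⟨L, h6, h7⟩ := hgen i 𝔮' fun h => hlt.not_ge (h3.2 ⟨hq', h⟩ hlt.le)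
      refine ⟨_, h7, hdeg.DL L, fun L' hL' => h5 (Ideal.subset_span ⟨L' ++ L, ?_, ?_⟩)⟩
      · simp only [Set.mem_setOf_eq, cntL_append, map_add]
        push_cast
        nlinarith
      · exact DL_append _ _ _
  obtain ⟨c, hc⟩ := bez (W0 (wt g n)) (W0_mul _) (W0_ex _)
    (fun 𝔞 x => ∑ k ∈ Ks, ell n (pt ω k) Finset.univ 𝔞 (s * x))
    (fun 𝔞 x y h => Finset.sum_le_sum fun k _ =>
      ell_mono n _ _ 𝔞 (mul_le_mul_of_nonneg_left h hs.le))
    (fun 𝔞 x hx => Finset.sum_eq_zero fun k _ =>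
      ell_nonpos n _ _ 𝔞 (mul_nonpos_of_nonneg_of_nonpos hs.le hx))
    (fun x => Finset.sum_eq_zero fun k _ => ell_top n _ _ _)
    (fun 𝔞 f x => by
      rw [← Finset.sum_add_distrib]
      exact Finset.sum_le_sum fun k _ => ell_sub' n _ _ 𝔞 f _) (by
      intro 𝔮 hq
      by_cases h1 : I (m + 1) ≤ 𝔮
      · left
        intro x
        by_cases h2 : ∃ k ∈ Ks, ∀ f ∈ 𝔮, aeval (pt ω k) f = 0
        · obtain ⟨k, hk, h2⟩ := h2
          obtain ⟨⟨c, hc⟩, l, c', hc'⟩ := hstr 𝔮 hq h1 fun h => by simpa [pt] using h2 _ h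
          have h3 : c = 1 := by
            have := h2 _ hc
            simp [pt, sub_eq_zero] at this
            exact this.symm
          subst h3
          rw [Finset.sum_eq_single k]
          · rcases le_or_gt x 0 with hx | hx
            · simp [ell_nonpos n _ _ 𝔮 (mul_nonpos_of_nonneg_of_nonpos hs.le hx)]
            · exact ell_le_Hilb n g rfl hc (by nlinarith)
          · intro k' _ hk'
            refine ell_eq_zero hn _ hc' (fun h => hk' ?_) _
            have h4 := h2 _ hc'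
            simp only [pt, map_sub, aeval_X, Option.elim_some, aeval_C, sub_eq_zero] at h h4
            exact_mod_cast mul_right_cancel₀ (hω l) (h.trans h4.symm)
          · exact fun h => absurd hk h
        · push Not at h2
          rw [Finset.sum_eq_zero]
          · exact zero_le
          · intro k hk
            obtain ⟨f, h3, h4⟩ := h2 k hk
            exact ell_eq_zero hn _ h3 h4 _
      · right
        obtain ⟨L, h2, h3⟩ := hgen _ _ h1
        refine ⟨_, N, hN, h3, (hdeg.DL L).mem_W0, fun x => ?_⟩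
        rw [← Finset.sum_add_distrib]
        refine Finset.sum_le_sum fun k hk => ?_
        have h4 : phi n (pt ω k) (DL L P) ∈ J ℂ (wt 1 n) Finset.univ (s * N) := by
          refine J_anti _ _ ?_ (jets (hvan k hk) L).1
          push_cast at h2
          linarith
        have := ell_prime Finset.univ hq h3 h4 (s * x)
        rwa [← mul_sub] at this) ⊥
  have := vol_le (wt_ne_zero one_ne_zero hn) (wt_ne_zero hg hn) (A := Finset.univ)
    (A' := Finset.univ) rfl (K := Ks.card) (c := c) hs fun x => by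
    have h1 := (hc x).trans (Hilb0_le_cnt (wt_ne_zero hg hn) _ _)
    have h2 := (Finset.sum_le_sum fun k _ => ell_bot hn (pt ω k) Finset.univ (s * x)).trans h1
    rw [Finset.sum_const, nsmul_eq_mul] at h2
    exact_mod_cast h2
  rw [Fintype.prod_option, Fintype.prod_option] at this
  simp only [Finset.card_univ, Fintype.card_option, Fintype.card_fin, wt_none, wt_some,
    Nat.cast_one] at this
  have h2 : 0 < ∏ l, (n l : ℝ) := Finset.prod_pos fun l _ => by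
    exact_mod_cast Nat.pos_of_ne_zero (hn l)
  rw [← mul_assoc] at this
  exact le_of_mul_le_mul_right this h2

end Crest.Agent.R11
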